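import Vale.Agent.P299.H598.IX.OpS

/-!
# First order operators on sections satisfy the axioms `LocOp`
-/

open scoped Manifold ContDiff ComplexOrder Topology Matrix ComplexConjugate
open MeasureTheory Set Filter
open Vale.Agent.P272.K Vale.Agent.P272.K.INT Vale.Agent.P299.H863

noncomputable section

namespace Vale.Agent.P299.IX

section lin
variable {n : ℕ} {V : Type*} [NormedAddCommGroup V] [NormedSpace ℂ V]

/-- `Φ ↦ (Φ(e_l) - i Φ(i e_l)) / 2` -/
def dzE (V : Type*) [NormedAddCommGroup V] [NormedSpace ℂ V] (l : Fin n) :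
    (Cm n →L[ℝ] V) →L[ℝ] V :=
  (2⁻¹ : ℂ) • (ContinuousLinearMap.apply ℝ V (Pi.single l 1 : Cm n) -
    Complex.I • ContinuousLinearMap.apply ℝ V (Pi.single l Complex.I : Cm n))

/-- `Φ ↦ (Φ(e_l) + i Φ(i e_l)) / 2` -/
def dzbE (V : Type*) [NormedAddCommGroup V] [NormedSpace ℂ V] (l : Fin n) :
    (Cm n →L[ℝ] V) →L[ℝ] V :=
  (2⁻¹ : ℂ) • (ContinuousLinearMap.apply ℝ V (Pi.single l 1 : Cm n) +
    Complex.I • ContinuousLinearMap.apply ℝ V (Pi.single l Complex.I : Cm n))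

lemma dzE_apply (l : Fin n) (Φ : Cm n →L[ℝ] V) : dzE V l Φ =
    (2⁻¹ : ℂ) • (Φ (Pi.single l 1) - Complex.I • Φ (Pi.single l Complex.I)) := rfl

lemma dzbE_apply (l : Fin n) (Φ : Cm n →L[ℝ] V) : dzbE V l Φ =
    (2⁻¹ : ℂ) • (Φ (Pi.single l 1) + Complex.I • Φ (Pi.single l Complex.I)) := rfl

lemma dzE_add_dzbE (l : Fin n) (Φ : Cm n →L[ℝ] V) :
    dzE V l Φ + dzbE V l Φ = Φ (Pi.single l 1) := by
  rw [dzE_apply, dzbE_apply, ← smul_add]
  rw [show Φ (Pi.single l 1) - Complex.I • Φ (Pi.single l Complex.I) +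
    (Φ (Pi.single l 1) + Complex.I • Φ (Pi.single l Complex.I)) =
      (2 : ℂ) • Φ (Pi.single l 1) by rw [two_smul]; abel]
  rw [smul_smul]; norm_num

lemma dzE_sub_dzbE (l : Fin n) (Φ : Cm n →L[ℝ] V) :
    Complex.I • (dzE V l Φ - dzbE V l Φ) = Φ (Pi.single l Complex.I) := by
  rw [dzE_apply, dzbE_apply, ← smul_sub]
  rw [show Φ (Pi.single l 1) - Complex.I • Φ (Pi.single l Complex.I) -
    (Φ (Pi.single l 1) + Complex.I • Φ (Pi.single l Complex.I)) =
      (-2 * Complex.I : ℂ) • Φ (Pi.single l Complex.I) by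
        rw [mul_smul, neg_smul, two_smul]; abel]
  rw [smul_smul, smul_smul]
  rw [show Complex.I * 2⁻¹ * (-2 * Complex.I) = -(Complex.I * Complex.I) by ring,
      Complex.I_mul_I, neg_neg, one_smul]

variable {κ : Type*} [Fintype κ]

lemma fderiv_toLp {u : Cm n → κ → ℂ} {z : Cm n} (hu : VC 1 u z) (v : Cm n) (i : κ) :
    (fderiv ℝ (fun y => (WithLp.toLp 2 (u y) : EuclideanSpace ℂ κ)) z v).ofLp i =
      fderiv ℝ (fun y => u y i) z v := by
  have h1 : DifferentiableAt ℝ (fun y => (WithLp.toLp 2 (u y) : EuclideanSpace ℂ κ)) z := by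
    have h2 : ContDiffAt ℝ 1 (fun y => (WithLp.toLp 2 (u y) : EuclideanSpace ℂ κ)) z :=
      (PiLp.contDiff_toLp (p := 2)).contDiffAt.comp z (contDiffAt_pi.2 hu)
    exact h2.differentiableAt (by simp)
  have h3 := (EuclideanSpace.proj (𝕜 := ℂ) i : EuclideanSpace ℂ κ →L[ℂ] ℂ).restrictScalars ℝ
    |>.hasFDerivAt.comp z h1.hasFDerivAt
  have h4 : HasFDerivAt (fun y => u y i)
    (((EuclideanSpace.proj (𝕜 := ℂ) i : EuclideanSpace ℂ κ →L[ℂ] ℂ).restrictScalars ℝ).comp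
      (fderiv ℝ (fun y => (WithLp.toLp 2 (u y) : EuclideanSpace ℂ κ)) z)) z := h3
  rw [h4.fderiv]
  rfl

lemma dzE_fderiv {u : Cm n → κ → ℂ} {z : Cm n} (hu : VC 1 u z) (l : Fin n) :
    dzE (EuclideanSpace ℂ κ) l (fderiv ℝ (fun y => WithLp.toLp 2 (u y)) z) =
      WithLp.toLp 2 (DV l u z) := by
  ext i
  rw [dzE_apply]
  simp only [PiLp.smul_apply, PiLp.sub_apply, fderiv_toLp hu, smul_eq_mul, DV, dz]
  ring

lemma dzbE_fderiv {u : Cm n → κ → ℂ} {z : Cm n} (hu : VC 1 u z) (l : Fin n) :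
    dzbE (EuclideanSpace ℂ κ) l (fderiv ℝ (fun y => WithLp.toLp 2 (u y)) z) =
      WithLp.toLp 2 (DVb l u z) := by
  ext i
  rw [dzbE_apply]
  simp only [PiLp.smul_apply, PiLp.add_apply, fderiv_toLp hu, smul_eq_mul, DVb, dzb]
  ring

end lin

section
variable {n : ℕ} {Z : Type*} [TopologicalSpace Z] [ChartedSpace (Cm n) Z]
  {κ : Type*} [Fintype κ] [DecidableEq κ] {B : Bun n Z κ}

/-- a matrix as a real continuous linear map -/
def mR (M : Matrix κ κ ℂ) : EuclideanSpace ℂ κ →L[ℝ] EuclideanSpace ℂ κ :=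
  ContinuousLinearMap.restrictScalarsL ℂ (EuclideanSpace ℂ κ) (EuclideanSpace ℂ κ) ℝ ℝ
    (Matrix.toEuclideanCLM (𝕜 := ℂ) M)

lemma mR_apply (M : Matrix κ κ ℂ) (v : κ → ℂ) :
    mR M (WithLp.toLp 2 v) = WithLp.toLp 2 (M *ᵥ v) := rfl

lemma contDiffOn_mR {M : Chart n Z → Cm n → Matrix κ κ ℂ}
    (hM : ∀ e x, At e x → ∀ i j, ContDiffAt ℝ ∞ (fun z => M e z i j) (e x))
    {e : Chart n Z} (he : e ∈ atlas (Cm n) Z) :
    ContDiffOn ℝ ∞ (fun z => mR (M e z)) e.target :=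
  (ContinuousLinearMap.restrictScalarsL ℂ (EuclideanSpace ℂ κ) (EuclideanSpace ℂ κ) ℝ ℝ).contDiff
    |>.comp_contDiffOn (ZOp.contDiffOn_toCLM hM he)

/-- the local form of a first order operator -/
lemma toLp_ap (P : FOp B) {u : Chart n Z → Cm n → κ → ℂ} {e : Chart n Z} {z : Cm n}
    (hu : VC 1 (u e) z) : WithLp.toLp 2 (P.ap u e z) =
    (∑ l, ((mR (P.A l e z)).comp (dzE (EuclideanSpace ℂ κ) l) +
      (mR (P.Ab l e z)).comp (dzbE (EuclideanSpace ℂ κ) l)))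
        (fderiv ℝ (fun y => WithLp.toLp 2 (u e y)) z) + mR (P.C e z) (WithLp.toLp 2 (u e z)) := by
  rw [_root_.sum_apply]
  simp only [_root_.add_apply, ContinuousLinearMap.comp_apply, dzE_fderiv hu,
    dzbE_fderiv hu, mR_apply]
  unfold FOp.ap act
  rw [WithLp.toLp_add, WithLp.toLp_sum]
  rfl

end

section
variable {n : ℕ} {Z : Type*} [TopologicalSpace Z] [ChartedSpace (Cm n) Z]
  [IsManifold 𝓘(ℂ, Cm n) ω Z] [T2Space Z] [CompactSpace Z]
  {κ : Type*} [Fintype κ] [DecidableEq κ] {B : Bun n Z κ}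

/-- first order operators satisfy the axioms -/
def FOp.locOp (P : FOp B) : LocOp B.locSp B.locSp P.op where
  a i x := ∑ l, ((mR (P.A l ((part n Z).e i) x)).comp (dzE (EuclideanSpace ℂ κ) l) +
      (mR (P.Ab l ((part n Z).e i) x)).comp (dzbE (EuclideanSpace ℂ κ) l))
  b i x := mR (P.C ((part n Z).e i) x)
  a_smooth i := by
    refine ContDiffOn.sum fun l _ => ?_
    exact ((contDiffOn_mR (P.smA l) ((part n Z).mem i)).clm_comp contDiffOn_const).add
      ((contDiffOn_mR (P.smAb l) ((part n Z).mem i)).clm_comp contDiffOn_const)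
  b_smooth i := contDiffOn_mR P.smC ((part n Z).mem i)
  r_D i s x hx := by
    have hA : At ((part n Z).e i) (((part n Z).e i).symm x) :=
      ⟨(part n Z).mem i, ((part n Z).e i).map_target hx⟩
    have h1 := P.op_at s hA
    have h2 := s.isSec.vc1 hA
    rw [((part n Z).e i).right_inv hx] at h1 h2
    exact (congrArg (WithLp.toLp 2) h1).trans (toLp_ap P h2)

end

end Vale.Agent.P299.IX
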