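import Vale.Agent.P299.H598.IX.OpL
import Vale.Agent.P299.H721.Sml
import Vale.Agent.P299.H863.LocS

/-!
# The Gårding inequality from the `∂̄`-bound
-/

open scoped Manifold ContDiff ComplexOrder Topology Matrix ComplexConjugate
open MeasureTheory Set Filter
open Vale.Agent.P272.K Vale.Agent.P272.K.INT Vale.Agent.P299.H863 Vale.Agent.P299.H721

noncomputable section

namespace Vale.Agent.P299.IX

section flat
variable {n : ℕ} {V : Type*} [NormedAddCommGroup V] [NormedSpace ℂ V]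

lemma clm_single (Φ : Cm n →L[ℝ] V) (b : Fin n) (c : ℂ) :
    Φ (Pi.single b c) = c • dzE V b Φ + (conj c) • dzbE V b Φ := by
  have h1 : (Pi.single b c : Cm n) =
      c.re • (Pi.single b 1 : Cm n) + c.im • (Pi.single b Complex.I : Cm n) := by
    rw [← Pi.single_smul, ← Pi.single_smul, ← Pi.single_add]
    congr 1
    simp
  rw [h1, map_add, map_smul, map_smul, ← dzE_add_dzbE, ← dzE_sub_dzbE]
  rw [← Complex.coe_smul, ← Complex.coe_smul]
  have e1 : c = (c.re : ℂ) + (c.im : ℂ) * Complex.I := (Complex.re_add_im c).symm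
  have e2 : conj c = (c.re : ℂ) - (c.im : ℂ) * Complex.I := by
    apply Complex.ext <;> simp
  conv_rhs => rw [e2]; enter [1]; rw [e1]
  simp only [smul_add, smul_sub, smul_smul, add_smul, sub_smul]
  abel

lemma norm_clm_le (Φ : Cm n →L[ℝ] V) : ‖Φ‖ ≤ ∑ b, (‖dzE V b Φ‖ + ‖dzbE V b Φ‖) := by
  refine Φ.opNorm_le_bound (Finset.sum_nonneg fun b _ => by positivity) fun v => ?_
  have hv : v = ∑ b, Pi.single b (v b) := (Finset.univ_sum_single v).symm
  conv_lhs => rw [hv]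
  rw [map_sum, Finset.sum_mul]
  refine (norm_sum_le _ _).trans (Finset.sum_le_sum fun b _ => ?_)
  rw [clm_single]
  refine (norm_add_le _ _).trans ?_
  rw [norm_smul, norm_smul, RCLike.norm_conj]
  have := norm_le_pi_norm v b
  calc ‖v b‖ * ‖dzE V b Φ‖ + ‖v b‖ * ‖dzbE V b Φ‖ = ‖v b‖ * (‖dzE V b Φ‖ + ‖dzbE V b Φ‖) := by ring
    _ ≤ ‖v‖ * (‖dzE V b Φ‖ + ‖dzbE V b Φ‖) := by gcongr
    _ = _ := by ring

lemma norm_sq_clm_le (Φ : Cm n →L[ℝ] V) :
    ‖Φ‖ ^ 2 ≤ 2 * n * ∑ b, (‖dzE V b Φ‖ ^ 2 + ‖dzbE V b Φ‖ ^ 2) := by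
  have h1 : ‖Φ‖ ^ 2 ≤ (∑ b, (‖dzE V b Φ‖ + ‖dzbE V b Φ‖)) ^ 2 := by
    gcongr
    exact norm_clm_le Φ
  have h2 := sq_sum_le_card_mul_sum_sq (s := (Finset.univ : Finset (Fin n)))
    (f := fun b => ‖dzE V b Φ‖ + ‖dzbE V b Φ‖)
  rw [Finset.card_univ, Fintype.card_fin] at h2
  refine h1.trans (h2.trans ?_)
  have h3 : ∀ b, (‖dzE V b Φ‖ + ‖dzbE V b Φ‖) ^ 2 ≤ 2 * (‖dzE V b Φ‖ ^ 2 + ‖dzbE V b Φ‖ ^ 2) :=
    fun b => by nlinarith [sq_nonneg (‖dzE V b Φ‖ - ‖dzbE V b Φ‖)]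
  calc (n : ℝ) * ∑ b, (‖dzE V b Φ‖ + ‖dzbE V b Φ‖) ^ 2
      ≤ n * ∑ b, 2 * (‖dzE V b Φ‖ ^ 2 + ‖dzbE V b Φ‖ ^ 2) := by
        gcongr with b; exact h3 b
    _ = _ := by rw [← Finset.mul_sum]; ring

variable {κ : Type*} [Fintype κ]

lemma norm_toLp_sq (v : κ → ℂ) : ‖(WithLp.toLp 2 v : EuclideanSpace ℂ κ)‖ ^ 2 = ∑ i, ‖v i‖ ^ 2 := by
  rw [EuclideanSpace.norm_sq_eq]

lemma integral_dz_sq {f : Cm n → ℂ} (hf : ContDiff ℝ ∞ f) (hc : HasCompactSupport f) (b : Fin n) :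
    ∫ z, ‖dz b f z‖ ^ 2 = ∫ z, ‖dzb b f z‖ ^ 2 := by
  have h := integral_norm_DD' (k := Pi.single b 1) (hf.of_le INT.two_le_inf) hc
  have e1 : ∀ z, DD' (Pi.single b 1) f z = dz b f z := fun z => by
    rw [DD', Finset.sum_eq_single b]
    · simp
    · intro c _ hc; rw [Pi.single_eq_of_ne hc]; simp
    · intro h; exact absurd (Finset.mem_univ b) h
  have e2 : ∀ z, DD (Pi.single b 1) f z = dzb b f z := fun z => by
    rw [DD, Finset.sum_eq_single b]
    · simp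
    · intro c _ hc; rw [Pi.single_eq_of_ne hc]; simp
    · intro h; exact absurd (Finset.mem_univ b) h
  simpa only [e1, e2] using h

/-- the flat inequality `∫ |du|² ≤ 4 n ∫ |∂̄u|²` -/
theorem flat_garding {u : Cm n → κ → ℂ} (hu : ContDiff ℝ ∞ u) (hc : HasCompactSupport u) :
    ∫ z, ‖fderiv ℝ (fun y => (WithLp.toLp 2 (u y) : EuclideanSpace ℂ κ)) z‖ ^ 2 ≤
      4 * n * ∫ z, ∑ b, ∑ i, ‖DVb b u z i‖ ^ 2 := by
  have hui : ∀ i, ContDiff ℝ ∞ (fun y => u y i) := fun i => contDiff_pi.1 hu i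
  have hci : ∀ i, HasCompactSupport (fun y => u y i) := fun i =>
    hc.comp_left (g := fun v : κ → ℂ => v i) rfl
  have hVC : ∀ z, VC 1 u z := fun z i => (hui i).contDiffAt.of_le (by exact_mod_cast le_top)
  have c1 : ∀ b i, Continuous fun z => ‖dz b (fun y => u y i) z‖ ^ 2 := fun b i =>
    ((contDiff_dz (m := 0) ((hui i).of_le (by exact_mod_cast le_top)) (l := 1) (by norm_num)
      b).continuous.norm).pow 2
  have c2 : ∀ b i, Continuous fun z => ‖dzb b (fun y => u y i) z‖ ^ 2 := fun b i =>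
    ((contDiff_dzb (m := 0) ((hui i).of_le (by exact_mod_cast le_top)) (l := 1) (by norm_num)
      b).continuous.norm).pow 2
  have s1 : ∀ b i, HasCompactSupport fun z => ‖dz b (fun y => u y i) z‖ ^ 2 := fun b i =>
    (hcs_dz (hci i) b).comp_left (g := fun w : ℂ => ‖w‖ ^ 2) (by simp)
  have s2 : ∀ b i, HasCompactSupport fun z => ‖dzb b (fun y => u y i) z‖ ^ 2 := fun b i =>
    (hcs_dzb (hci i) b).comp_left (g := fun w : ℂ => ‖w‖ ^ 2) (by simp)
  have i1 : ∀ b i, Integrable fun z => ‖dz b (fun y => u y i) z‖ ^ 2 := fun b i =>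
    (c1 b i).integrable_of_hasCompactSupport (s1 b i)
  have i2 : ∀ b i, Integrable fun z => ‖dzb b (fun y => u y i) z‖ ^ 2 := fun b i =>
    (c2 b i).integrable_of_hasCompactSupport (s2 b i)
  have hb : ∀ z, ‖fderiv ℝ (fun y => (WithLp.toLp 2 (u y) : EuclideanSpace ℂ κ)) z‖ ^ 2 ≤
      2 * n * ∑ b, (∑ i, ‖dz b (fun y => u y i) z‖ ^ 2 + ∑ i, ‖dzb b (fun y => u y i) z‖ ^ 2) := by
    intro z
    refine (norm_sq_clm_le _).trans (le_of_eq ?_)
    congr 1
    refine Finset.sum_congr rfl fun b _ => ?_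
    rw [dzE_fderiv (hVC z), dzbE_fderiv (hVC z), norm_toLp_sq, norm_toLp_sq]
    rfl
  have I : Integrable fun z => 2 * (n : ℝ) * ∑ b, (∑ i, ‖dz b (fun y => u y i) z‖ ^ 2 +
      ∑ i, ‖dzb b (fun y => u y i) z‖ ^ 2) :=
    (integrable_finsetSum _ fun b _ => (integrable_finsetSum _ fun i _ => i1 b i).add
      (integrable_finsetSum _ fun i _ => i2 b i)).const_mul _
  have hm : ∫ z, ‖fderiv ℝ (fun y => (WithLp.toLp 2 (u y) : EuclideanSpace ℂ κ)) z‖ ^ 2 ≤
      ∫ z, 2 * (n : ℝ) * ∑ b, (∑ i, ‖dz b (fun y => u y i) z‖ ^ 2 +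
      ∑ i, ‖dzb b (fun y => u y i) z‖ ^ 2) :=
    integral_mono_of_nonneg (Eventually.of_forall fun z => by positivity) I
      (Eventually.of_forall hb)
  refine hm.trans (le_of_eq ?_)
  have e4 : ∫ z, ∑ b, (∑ i, ‖dz b (fun y => u y i) z‖ ^ 2 + ∑ i, ‖dzb b (fun y => u y i) z‖ ^ 2)
      = ∑ b, ∫ z, (∑ i, ‖dz b (fun y => u y i) z‖ ^ 2 + ∑ i, ‖dzb b (fun y => u y i) z‖ ^ 2) :=
    integral_finsetSum _ fun b _ => Integrable.add (f := fun z => ∑ i, ‖dz b (fun y => u y i) z‖ ^ 2)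
      (g := fun z => ∑ i, ‖dzb b (fun y => u y i) z‖ ^ 2)
      (integrable_finsetSum _ fun i _ => i1 b i) (integrable_finsetSum _ fun i _ => i2 b i)
  have e5 : ∫ z, ∑ b, ∑ i, ‖DVb b u z i‖ ^ 2 = ∑ b, ∫ z, ∑ i, ‖dzb b (fun y => u y i) z‖ ^ 2 :=
    integral_finsetSum _ fun b _ => integrable_finsetSum _ fun i _ => i2 b i
  rw [integral_const_mul, e4, e5, Finset.mul_sum, Finset.mul_sum]
  refine Finset.sum_congr rfl fun b _ => ?_
  rw [integral_add (integrable_finsetSum _ fun i _ => i1 b i)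
    (integrable_finsetSum _ fun i _ => i2 b i), integral_finsetSum _ fun i _ => i1 b i,
    integral_finsetSum _ fun i _ => i2 b i, Finset.sum_congr rfl fun i _ =>
      integral_dz_sq (hui i) (hci i) b]
  ring

end flat

section
variable {n : ℕ} {Z : Type*} [TopologicalSpace Z] [ChartedSpace (Cm n) Z]
  {κ : Type*} [Fintype κ] [DecidableEq κ] {B : Bun n Z κ} {w : D.FormM n Z}

/-- the density `Σ w^{b l} ⟨∂̄_b s, ∂̄_l s⟩` -/
def gden (w : D.FormM n Z) (B : Bun n Z κ) (u : Chart n Z → Cm n → κ → ℂ) :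
    Chart n Z → Cm n → ℝ := fun e z => en (w e z)⁻¹ (B.H e z) fun b => DVb b (u e) z

/-- coercivity on compact sets in a chart -/
lemma exists_en_lower (hw : Vale.Agent.P272.K.IsHermitian w) {e : Chart n Z}
    (he : e ∈ atlas (Cm n) Z) {K : Set (Cm n)} (hK : IsCompact K) (hKe : K ⊆ e.target) :
    ∃ m : ℝ, 0 < m ∧ ∀ z ∈ K, ∀ ξ : Fin n → κ → ℂ,
      m * ∑ b, ∑ i, ‖ξ b i‖ ^ 2 ≤ en (w e z)⁻¹ (B.H e z) ξ := by
  set M : Chart n Z → Cm n → Matrix (Fin n × κ) (Fin n × κ) ℂ := fun e z =>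
    Matrix.kroneckerMap (· * ·) ((w e z)⁻¹)ᵀ (B.H e z) with hM
  have hsm : ∀ e x, At e x → ∀ i j, ContDiffAt ℝ ∞ (fun z => M e z i j) (e x) := by
    intro e x hx p q
    have hm : C2.MC ∞ (w e) (e x) := fun p q => hw.smooth e x hx p q
    have h0 : (w e (e x)).det ≠ 0 := (hw.posDef e x hx).det_pos.ne'
    exact (hm.inv h0 q.1 p.1).mul (B.H_smooth e x hx p.2 q.2)
  have hG := (ZOp.contDiffOn_toCLM hsm he).continuousOn.mono hKe
  obtain ⟨m, hm, hmb⟩ := exists_lower hK hG fun z hz v hv => by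
    have hA : At e (e.symm z) := ⟨he, e.map_target (hKe hz)⟩
    have hH := B.H_pos _ _ hA
    have hw' := hw.posDef _ _ hA
    rw [e.right_inv (hKe hz)] at hH hw'
    have hP : (M e z).PosDef := hw'.inv.transpose.kronecker hH
    rw [EuclideanSpace.inner_eq_star_dotProduct, Matrix.ofLp_toEuclideanCLM, dotProduct_comm]
    exact (Complex.lt_def.1 (hP.dotProduct_mulVec_pos fun h => hv (by
      ext j; exact congrFun h j))).1
  refine ⟨m, hm, fun z hz ξ => ?_⟩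
  have h := hmb z hz (WithLp.toLp 2 fun p : Fin n × κ => ξ p.1 p.2)
  rw [EuclideanSpace.inner_eq_star_dotProduct, Matrix.ofLp_toEuclideanCLM, dotProduct_comm,
    norm_toLp_sq, Fintype.sum_prod_type] at h
  rw [en_eq_qf]
  exact h

end

section
variable {n : ℕ} {Z : Type*} [TopologicalSpace Z] [ChartedSpace (Cm n) Z]
  [IsManifold 𝓘(ℂ, Cm n) ω Z] [T2Space Z] [CompactSpace Z]
  {κ : Type*} [Fintype κ] [DecidableEq κ] {B : Bun n Z κ} {w : D.FormM n Z}

lemma toLp_smS (i : Fin (part n Z).N) (s : B.S) :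
    (fun z => (WithLp.toLp 2 ((smS ((part n Z).ρ i) ((part n Z).smooth i) s).f
      ((part n Z).e i) z) : EuclideanSpace ℂ κ)) = B.locSp.loc i s := by
  funext z
  by_cases hz : z ∈ ((part n Z).e i).target
  · rw [smS_z _ _ ((part n Z).mem i) hz]
    change _ = chi ((part n Z).e i) ((part n Z).ρ i) z • WithLp.toLp 2 (s.f ((part n Z).e i) z)
    rw [chi_eq hz]
    rw [← Complex.coe_smul]
    rfl
  · rw [Bun.S.off _ fun h => hz h.2]
    have hz' : z ∉ tsupport ((cov n Z).χ i) := fun h => hz (((cov n Z).test i).supp h)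
    rw [LocSp.loc_zero _ _ _ hz']
    rfl

/-- **Gårding's inequality** -/
theorem garding (hw : Vale.Agent.P272.K.IsHermitian w) (D : B.S →ₗ[ℂ] B.S)
    (h0 : ∀ s : B.S, IsDensity (gden w B s.f))
    (h1 : ∀ s : B.S, intX (gden w B s.f) ≤ ‖D s‖ ^ 2)
    (h2 : ∀ (χ : Z → ℝ) (hχ : SmoothFn (n := n) χ), ∃ C : ℝ, 0 ≤ C ∧ ∀ s : B.S,
      ‖D (smS χ hχ s) - smS χ hχ (D s)‖ ≤ C * ‖s‖) (i : Fin (part n Z).N) :
    ∃ C : ℝ, 0 ≤ C ∧ ∀ s : B.S,
      n2 volume (fderiv ℝ (B.locSp.loc i s)) ≤ C * (‖s‖ + ‖D s‖) := by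
  set e := (part n Z).e i with he
  have hem : e ∈ atlas (Cm n) Z := (part n Z).mem i
  set ρ := (part n Z).ρ i with hρ
  have hρs : SmoothFn (n := n) ρ := (part n Z).smooth i
  have hsupp : tsupport ρ ⊆ e.source := (part n Z).supp i
  have hKc : IsCompact (e '' tsupport ρ) := isCompact_image_supp hsupp
  have hKe : e '' tsupport ρ ⊆ e.target := by
    rintro _ ⟨x, hx, rfl⟩; exact e.map_source (hsupp hx)
  obtain ⟨m, hm, hmb⟩ := exists_en_lower (B := B) hw hem hKc hKe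
  obtain ⟨C, hC0, hC⟩ := h2 ρ hρs
  -- bound of the multiplication
  have hmul : ∀ s : B.S, ‖smS ρ hρs s‖ ≤ ‖s‖ := by
    intro s
    refine abs_le_of_sq_le_sq' ?_ (norm_nonneg _) |>.2
    rw [Bun.norm_sq_eq, Bun.norm_sq_eq]
    refine intX_mono (Bun.isDensity_re (smS ρ hρs s).isSec (smS ρ hρs s).isSec)
      (Bun.isDensity_re s.isSec s.isSec) fun e' x hx => ?_
    rw [den_re, den_re, smS_at hρs s hx, qf_smul]
    have h3 : 0 ≤ qf (B.H e' (e' x)) (s.f e' (e' x)) :=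
      qf_nonneg (B.H_pos e' x hx).posSemidef _
    have h4 : ρ x ≤ 1 := by
      rw [← (part n Z).sum x]
      exact Finset.single_le_sum (f := fun j => (part n Z).ρ j x)
        (fun j _ => (part n Z).nonneg j x) (Finset.mem_univ i)
    have h5 : 0 ≤ ρ x := (part n Z).nonneg i x
    have h6 : ρ x ^ 2 ≤ 1 := by nlinarith
    calc ρ x ^ 2 * qf (B.H e' (e' x)) (s.f e' (e' x))
        ≤ 1 * qf (B.H e' (e' x)) (s.f e' (e' x)) := by gcongr
      _ = _ := one_mul _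
  refine ⟨Real.sqrt (4 * n / m) * (C + 1), by positivity, fun s => ?_⟩
  set s' := smS ρ hρs s with hs'
  have h0' : ∀ e' x, At e' x → x ∉ tsupport ρ → s'.f e' (e' x) = 0 := by
    intro e' x hx hxK
    rw [hs', smS_at hρs s hx, image_eq_zero_of_notMem_tsupport hxK]
    simp
  have hsm : ContDiff ℝ ∞ (s'.f e) := smoothS hem (isClosed_tsupport ρ) hsupp s' h0'
  have hcs : HasCompactSupport (s'.f e) := hcsS hem (isClosed_tsupport ρ) hsupp s' h0'
  have hts : tsupport (s'.f e) ⊆ e '' tsupport ρ := tsuppS hem (isClosed_tsupport ρ) hsupp s' h0'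
  have hflat := flat_garding hsm hcs
  have hDVb0 : ∀ z, z ∉ e '' tsupport ρ → ∀ b, DVb b (s'.f e) z = 0 := by
    intro z hz b
    have h3 : s'.f e =ᶠ[𝓝 z] fun _ => 0 :=
      notMem_tsupport_iff_eventuallyEq.1 fun h => hz (hts h)
    rw [DVb_congr h3]
    ext j
    exact INT.dzb_const 0
  -- compare with the energy
  have hle : m * ∫ z, ∑ b, ∑ j, ‖DVb b (s'.f e) z j‖ ^ 2 ≤ intX (gden w B s'.f) := by
    have h3 : intX (gden w B s'.f) = ∫ z, e.target.indicator (gden w B s'.f e) z := by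
      refine intX_chart hem (isClosed_tsupport ρ) hsupp (h0 s') ?_
        (fun z hz => (Set.indicator_of_mem hz _).symm) fun z hz => Set.indicator_of_notMem hz _
      intro e' x hx hxK
      have h4 : s'.f e' =ᶠ[𝓝 (e' x)] fun _ => 0 := by
        have h5 : ∀ᶠ z in 𝓝 (e' x), e'.symm z ∉ tsupport ρ := by
          have h6 : (tsupport ρ)ᶜ ∈ 𝓝 (e'.symm (e' x)) := by
            rw [e'.left_inv hx.2]
            exact (isClosed_tsupport ρ).isOpen_compl.mem_nhds hxK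
          exact (e'.continuousAt_symm (e'.map_source hx.2)).preimage_mem_nhds h6
        filter_upwards [h5, e'.open_target.mem_nhds (e'.map_source hx.2)] with z hz hzt
        have := h0' e' (e'.symm z) ⟨hx.1, e'.map_target hzt⟩ hz
        rwa [e'.right_inv hzt] at this
      unfold gden en
      have h7 : ∀ b, DVb b (s'.f e') (e' x) = 0 := fun b => by
        rw [DVb_congr h4]; ext j; exact INT.dzb_const 0
      simp [h7]
    rw [h3, ← integral_const_mul]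
    refine integral_mono_of_nonneg (Eventually.of_forall fun z => ?_) ?_
      (Eventually.of_forall fun z => ?_)
    · exact mul_nonneg hm.le (Finset.sum_nonneg fun b _ => Finset.sum_nonneg fun j _ => by positivity)
    · have hcontD : ContinuousOn (fun z => gden w B s'.f e z) e.target := (h0 s').continuousOn hem
      have h4 := integrableOn_chart (X := Z) hcontD (isClosed_tsupport ρ) hsupp (fun z hz hzK => by
        have h8 : z ∉ e '' tsupport ρ := by
          rintro ⟨x, hx, rfl⟩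
          rw [e.left_inv (hsupp hx)] at hzK
          exact hzK hx
        unfold gden en
        simp [hDVb0 z h8])
      exact (integrable_indicator_iff e.open_target.measurableSet).2 h4
    · by_cases hz : z ∈ e '' tsupport ρ
      · simp only [Set.indicator_of_mem (hKe hz)]
        exact hmb z hz _
      · have h9 : m * ∑ b, ∑ j, ‖DVb b (s'.f e) z j‖ ^ 2 = 0 := by
          simp [hDVb0 z hz]
        simp only [h9]
        by_cases hzt : z ∈ e.target
        · rw [Set.indicator_of_mem hzt]; unfold gden en; simp [hDVb0 z hz]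
        · rw [Set.indicator_of_notMem hzt]
  have hD : ‖D s'‖ ≤ (C + 1) * (‖s‖ + ‖D s‖) := by
    calc ‖D s'‖ = ‖(D s' - smS ρ hρs (D s)) + smS ρ hρs (D s)‖ := by rw [sub_add_cancel]
      _ ≤ C * ‖s‖ + ‖D s‖ := (norm_add_le _ _).trans (add_le_add (hC s) (hmul (D s)))
      _ ≤ _ := by nlinarith [norm_nonneg s, norm_nonneg (D s), mul_nonneg hC0 (norm_nonneg (D s))]
  -- conclusion
  have hn2 : n2 volume (fderiv ℝ (B.locSp.loc i s)) ^ 2 ≤ 4 * n / m * ‖D s'‖ ^ 2 := by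
    rw [← toLp_smS i s]
    have hUs : ContDiff ℝ ∞ (fun z => (WithLp.toLp 2 (s'.f e z) : EuclideanSpace ℂ κ)) :=
      (PiLp.contDiff_toLp (p := 2)).comp hsm
    have hUc : HasCompactSupport (fun z => (WithLp.toLp 2 (s'.f e z) : EuclideanSpace ℂ κ)) :=
      hcs.comp_left (g := fun v : κ → ℂ => (WithLp.toLp 2 v : EuclideanSpace ℂ κ)) rfl
    have hfd : ContDiff ℝ ∞ (fderiv ℝ fun z => (WithLp.toLp 2 (s'.f e z) : EuclideanSpace ℂ κ)) :=
      hUs.fderiv_right (by simp)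
    have hmem : MemLp (fderiv ℝ fun z => (WithLp.toLp 2 (s'.f e z) : EuclideanSpace ℂ κ)) 2
        volume := hfd.continuous.memLp_of_hasCompactSupport (hUc.fderiv ℝ)
    rw [n2_sq hmem]
    calc _ ≤ 4 * n * ∫ z, ∑ b, ∑ j, ‖DVb b (s'.f e) z j‖ ^ 2 := hflat
      _ = 4 * n / m * (m * ∫ z, ∑ b, ∑ j, ‖DVb b (s'.f e) z j‖ ^ 2) := by field_simp
      _ ≤ 4 * n / m * ‖D s'‖ ^ 2 := by
        gcongr
        exact hle.trans (h1 s')
  refine abs_le_of_sq_le_sq' ?_ (by positivity) |>.2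
  refine hn2.trans ?_
  have h10 : (Real.sqrt (4 * n / m) * (C + 1) * (‖s‖ + ‖D s‖)) ^ 2 =
      4 * n / m * ((C + 1) * (‖s‖ + ‖D s‖)) ^ 2 := by
    rw [mul_assoc, mul_pow, Real.sq_sqrt (by positivity)]
  rw [h10]
  gcongr

end

end Vale.Agent.P299.IX
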