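import Vale.Agent.P299.H598.IX.OpL
import Vale.Agent.P299.H598.IX.Gard
import Vale.Agent.P299.H954.IX.Glob
import Vale.Agent.P299.H835.IX.KzGlob

/-!
# The operator `D' + δ` on the total bundle
-/

open scoped Manifold ContDiff ComplexOrder Topology Matrix ComplexConjugate
open MeasureTheory Set Filter
open Vale.Agent.P272.K Vale.Agent.P272.K.INT Vale.Agent.P299.H863 Vale.Agent.P299.H721

noncomputable section

namespace Vale.Agent.P299.IX

open Kz

section
variable {n : ℕ} {Z : Type*} [TopologicalSpace Z] [ChartedSpace (Cm n) Z]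
  [IsManifold 𝓘(ℂ, Cm n) ω Z] {w : D.FormM n Z}

omit [ChartedSpace (Cm n) Z] [IsManifold 𝓘(ℂ, Cm n) ω Z] in
/-- the local expression of the total operator, block by block -/
lemma blk_act (k0 N : ℕ) (u : Chart n Z → Cm n → FI n × FI N → ℂ) (S : FI N) :
    Bun.blk (act (fun l _ _ => Matrix.blockDiagonal fun _ : FI N => eps l)
      (fun l e z => Matrix.blockDiagonal fun _ : FI N => -epd l (w e) z)
      (fun e z => Matrix.blockDiagonal fun S : FI N =>
        ∑ l, (((1 + S.card * k0 : ℕ) : ℂ) * tG l (w e) z) • eps l) u) S =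
      DDX (1 + S.card * k0) w (Bun.blk u S) := by
  funext e z I
  unfold Bun.blk act DDX Dp De
  simp only [Pi.add_apply, Finset.sum_apply, Bun.blockDiagonal_mulVec, Pi.neg_apply]
  rw [Finset.sum_add_distrib]
  have h1 : ∀ l, (eps l *ᵥ fun J => DV l (u e) z (J, S)) I =
      (eps l *ᵥ DV l (fun y J => u e y (J, S)) z) I := fun l => rfl
  have h2 : ∀ l, (-epd l (w e) z *ᵥ fun J => DVb l (u e) z (J, S)) I =
      -(epd l (w e) z *ᵥ DVb l (fun y J => u e y (J, S)) z) I := fun l => by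
    rw [Matrix.neg_mulVec]; rfl
  have h3 : ((∑ l, (((1 + S.card * k0 : ℕ) : ℂ) * tG l (w e) z) • eps l) *ᵥ
      fun J => u e z (J, S)) I =
      ∑ l, (eps l *ᵥ ((((1 + S.card * k0 : ℕ) : ℂ) * tG l (w e) z) • fun J => u e z (J, S))) I := by
    rw [Matrix.sum_mulVec, Finset.sum_apply]
    exact Finset.sum_congr rfl fun l _ => by rw [Matrix.smul_mulVec, Matrix.mulVec_smul]
  simp only [h1, h2, h3, Finset.sum_neg_distrib, Matrix.mulVec_add, Pi.add_apply,
    Finset.sum_add_distrib]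
  ring

/-- The operator `D' + δ` on the total bundle. -/
def DDF (hw : IsKahler w) (k0 N : ℕ) : FOp (Btot hw k0 N) where
  A l _ _ := Matrix.blockDiagonal fun _ : FI N => eps l
  Ab l e z := Matrix.blockDiagonal fun _ : FI N => -epd l (w e) z
  C e z := Matrix.blockDiagonal fun S : FI N =>
    ∑ l, (((1 + S.card * k0 : ℕ) : ℂ) * tG l (w e) z) • eps l
  smA l e x hx p q := contDiffAt_const
  smAb l e x hx p q := by
    have h := MC_epd (G.kat w hw hx) l
    obtain ⟨I, S⟩ := p
    obtain ⟨J, S'⟩ := q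
    simp only [Matrix.blockDiagonal_apply]
    split_ifs
    · exact (h I J).neg
    · exact contDiffAt_const
  smC e x hx p q := by
    obtain ⟨I, S⟩ := p
    obtain ⟨J, S'⟩ := q
    simp only [Matrix.blockDiagonal_apply]
    split_ifs
    · exact MC_sum _ (fun l _ => MC_smul (contDiffAt_const.mul
        (contDiffAt_tG (l := l) (G.kat w hw hx))) (MC_const _)) I J
    · exact contDiffAt_const
  sec u hu := by
    refine Bun.isSec_of_blk fun S => ?_
    rw [blk_act, isSec_FB_iff]
    exact (isSec_FB_iff.1 (Bun.isSec_blk hu S)).dd hw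

variable {hw : IsKahler w} {k0 N : ℕ}

lemma blk_DDF (u : Chart n Z → Cm n → FI n × FI N → ℂ) (S : FI N) :
    Bun.blk ((DDF hw k0 N).ap u) S = DDX (1 + S.card * k0) w (Bun.blk u S) := blk_act k0 N u S

lemma isSec_blk_tot (s : (Btot hw k0 N).S) (S : FI N) :
    IX.IsSec (1 + S.card * k0) (Bun.blk s.f S) := isSec_FB_iff.1 (Bun.isSec_blk s.isSec S)

lemma blk_DDF_at (s : (Btot hw k0 N).S) (S : FI N) {e : Chart n Z} {x : Z} (hx : At e x) :
    Bun.blk ((DDF hw k0 N).op s).f S e (e x) = DDX (1 + S.card * k0) w (Bun.blk s.f S) e (e x) := by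
  have h := (DDF hw k0 N).op_at s hx
  have h2 := congrFun (congrFun (blk_DDF (hw := hw) (k0 := k0) s.f S) e) (e x)
  rw [← h2]
  funext I
  exact congrFun h (I, S)

/-- the total operator is `Kz.DDt` in charts -/
lemma DDF_ap (u : Chart n Z → Cm n → FI n × FI N → ℂ) (e : Chart n Z) (z : Cm n) :
    (DDF hw k0 N).ap u e z = DDt k0 (w e) (u e) z := by
  funext I
  obtain ⟨I, S⟩ := I
  exact congrFun (congrFun (congrFun (blk_DDF (hw := hw) (k0 := k0) u S) e) z) I

lemma DDF_at (s : (Btot hw k0 N).S) {e : Chart n Z} {x : Z} (hx : At e x) :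
    ((DDF hw k0 N).op s).f e (e x) = DDt k0 (w e) (s.f e) (e x) :=
  ((DDF hw k0 N).op_at s hx).trans (DDF_ap _ _ _)

/-- the energy density of the total bundle -/
lemma gden_tot (u : Chart n Z → Cm n → FI n × FI N → ℂ) (e : Chart n Z) (z : Cm n) :
    gden w (Btot hw k0 N) u e z =
      ∑ S : FI N, (gradbX (1 + S.card * k0) w (Bun.blk u S) (Bun.blk u S) e z).re := by
  unfold gden en gradbX
  rw [← Complex.re_sum]
  congr 1
  have h1 : ∀ b l, star (DVb l (u e) z) ⬝ᵥ ((Btot hw k0 N).H e z *ᵥ DVb b (u e) z) =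
      ∑ S : FI N, hp (1 + S.card * k0) (w e) z (DVb b (Bun.blk u S e) z)
        (DVb l (Bun.blk u S e) z) := by
    intro b l
    have h2 := Bun.blockDiagonal_form (fun S : FI N => (FB (1 + S.card * k0) hw).H e z)
      (DVb l (u e) z) (DVb b (u e) z)
    refine h2.trans (Finset.sum_congr rfl fun S _ => ?_)
    have h3 := den_FB (hw := hw) (k := 1 + S.card * k0) (fun _ _ => DVb l (Bun.blk u S e) z)
      (fun _ _ => DVb b (Bun.blk u S e) z) e z
    exact h3
  simp only [h1, Finset.mul_sum]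
  rw [Finset.sum_comm]
  calc ∑ l, ∑ b, ∑ S : FI N, (w e z)⁻¹ b l * hp (1 + S.card * k0) (w e) z
        (DVb b (Bun.blk u S e) z) (DVb l (Bun.blk u S e) z)
      = ∑ l, ∑ S : FI N, ∑ b, (w e z)⁻¹ b l * hp (1 + S.card * k0) (w e) z
        (DVb b (Bun.blk u S e) z) (DVb l (Bun.blk u S e) z) :=
        Finset.sum_congr rfl fun l _ => Finset.sum_comm
    _ = _ := Finset.sum_comm

lemma den_tot (u v : Chart n Z → Cm n → FI n × FI N → ℂ) (e : Chart n Z) (z : Cm n) :
    (Btot hw k0 N).den u v e z =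
      ∑ S : FI N, hpX (1 + S.card * k0) w (Bun.blk v S) (Bun.blk u S) e z := by
  rw [Bun.den_sum]
  exact Finset.sum_congr rfl fun S _ => den_FB _ _ _ _

end

section
variable {n : ℕ} {Z : Type*} [TopologicalSpace Z] [ChartedSpace (Cm n) Z]
  [IsManifold 𝓘(ℂ, Cm n) ω Z] [T2Space Z] [CompactSpace Z] {w : D.FormM n Z}
  {hw : IsKahler w} {k0 N : ℕ}

lemma isDensity_gradbX {k : ℕ} (hw : IsKahler w) {g : Frm n Z} (hg : IX.IsSec k g) :
    IsDensity fun e z => (gradbX k w g g e z).re := by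
  have h := G.dens_gradbL hw (isHLB_K k hw) (isSec_iff.1 hg) (isSec_iff.1 hg)
  rw [← gradbX_eq] at h
  exact h.re

/-- (h0) -/
lemma isDensity_gden (s : (Btot hw k0 N).S) : IsDensity (gden w (Btot hw k0 N) s.f) := by
  have h : gden w (Btot hw k0 N) s.f = fun e z =>
      ∑ S : FI N, (gradbX (1 + S.card * k0) w (Bun.blk s.f S) (Bun.blk s.f S) e z).re := by
    funext e z; exact gden_tot _ _ _
  rw [h]
  exact IsDensity.sum _ fun S _ => isDensity_gradbX hw (isSec_blk_tot s S)

lemma intC_sum {ι : Type*} (s : Finset ι) {F : ι → Chart n Z → Cm n → ℂ}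
    (h : ∀ i ∈ s, IsDen (F i)) :
    intC (fun e z => ∑ i ∈ s, F i e z) = ∑ i ∈ s, intC (F i) := by
  apply Complex.ext
  · rw [intC_re, Complex.re_sum, ← Finset.sum_congr rfl fun i _ => (intC_re (F i)).symm]
    rw [← intX_sum s fun i hi => (h i hi).re]
    exact intX_congr fun e x _ => Complex.re_sum _ _
  · rw [intC_im, Complex.im_sum, ← Finset.sum_congr rfl fun i _ => (intC_im (F i)).symm]
    rw [← intX_sum s fun i hi => (h i hi).im]
    exact intX_congr fun e x _ => Complex.im_sum _ _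

/-- the inner product of the total bundle -/
lemma inner_tot (s t : (Btot hw k0 N).S) : inner ℂ s t =
    ∑ S : FI N, ipX (1 + S.card * k0) w (Bun.blk t.f S) (Bun.blk s.f S) := by
  rw [Bun.inner_eq]
  have h : (Btot hw k0 N).den s.f t.f = fun e z => ∑ S : FI N,
      hpX (1 + S.card * k0) w (Bun.blk t.f S) (Bun.blk s.f S) e z := by
    funext e z; exact den_tot _ _ _ _
  rw [h, intC_sum]
  · rfl
  · intro S _
    have h2 := Bun.isDen (B := FB (1 + S.card * k0) hw) (Bun.isSec_blk s.isSec S)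
      (Bun.isSec_blk t.isSec S)
    have h3 : (FB (1 + S.card * k0) hw).den (Bun.blk s.f S) (Bun.blk t.f S) =
        hpX (1 + S.card * k0) w (Bun.blk t.f S) (Bun.blk s.f S) := by
      funext e z; exact den_FB _ _ _ _
    rwa [h3] at h2

lemma ipX_congr {k : ℕ} {g g' h h' : Frm n Z} (hg : ∀ e x, At e x → g e (e x) = g' e (e x))
    (hh : ∀ e x, At e x → h e (e x) = h' e (e x)) : ipX k w g h = ipX k w g' h' := by
  have h1 : ∀ e x, At e x → hpX k w g h e (e x) = hpX k w g' h' e (e x) := fun e x hx => by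
    unfold hpX; rw [hg e x hx, hh e x hx]
  exact intC_congr h1

/-- the total operator is symmetric -/
theorem DDF_symm (s t : (Btot hw k0 N).S) :
    inner ℂ ((DDF hw k0 N).op s) t = inner ℂ s ((DDF hw k0 N).op t) := by
  rw [inner_tot, inner_tot]
  refine Finset.sum_congr rfl fun S _ => ?_
  rw [ipX_congr (g' := Bun.blk t.f S) (h' := DDX (1 + S.card * k0) w (Bun.blk s.f S))
      (fun e x _ => rfl) (fun e x hx => blk_DDF_at s S hx),
    ipX_congr (g := Bun.blk ((DDF hw k0 N).op t).f S)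
      (g' := DDX (1 + S.card * k0) w (Bun.blk t.f S)) (h' := Bun.blk s.f S)
      (fun e x hx => blk_DDF_at t S hx) (fun e x _ => rfl)]
  exact (ipX_dd hw (isSec_blk_tot t S) (isSec_blk_tot s S)).symm

/-- (h1) -/
theorem intX_gden_le (hric : D.RicNonneg w) (s : (Btot hw k0 N).S) :
    intX (gden w (Btot hw k0 N) s.f) ≤ ‖(DDF hw k0 N).op s‖ ^ 2 := by
  have h1 : ‖(DDF hw k0 N).op s‖ ^ 2 = ∑ S : FI N, (ipX (1 + S.card * k0) w
      (DDX (1 + S.card * k0) w (Bun.blk s.f S)) (DDX (1 + S.card * k0) w (Bun.blk s.f S))).re := by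
    rw [← inner_self_eq_norm_sq (𝕜 := ℂ), inner_tot]
    change (∑ S : FI N, _ : ℂ).re = _
    rw [Complex.re_sum]
    refine Finset.sum_congr rfl fun S _ => ?_
    rw [ipX_congr (fun e x hx => blk_DDF_at s S hx) (fun e x hx => blk_DDF_at s S hx)]
  have h2 : intX (gden w (Btot hw k0 N) s.f) = ∑ S : FI N,
      (G.intC (gradbX (1 + S.card * k0) w (Bun.blk s.f S) (Bun.blk s.f S))).re := by
    have h : gden w (Btot hw k0 N) s.f = fun e z =>
        ∑ S : FI N, (gradbX (1 + S.card * k0) w (Bun.blk s.f S) (Bun.blk s.f S) e z).re := by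
      funext e z; exact gden_tot _ _ _
    rw [h, intX_sum _ fun S _ => isDensity_gradbX hw (isSec_blk_tot s S)]
    exact Finset.sum_congr rfl fun S _ => (G.intC_re _).symm
  rw [h1, h2]
  exact Finset.sum_le_sum fun S _ => bknX_le hw hric (isSec_blk_tot s S)

end

end Vale.Agent.P299.IX
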