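import Vale.Agent.P299.H598.IX.Op
import Vale.Agent.P299.H863.LocD

/-!
# Operators on smooth sections: action on sections, adjoints, boundedness, local form
-/

open scoped Manifold ContDiff ComplexOrder Topology Matrix ComplexConjugate
open MeasureTheory Set Filter
open Vale.Agent.P272.K Vale.Agent.P272.K.INT Vale.Agent.P299.H863

noncomputable section

namespace Vale.Agent.P299.IX

section
variable {n : ℕ} {Z : Type*} [TopologicalSpace Z] [ChartedSpace (Cm n) Z] {κ : Type*}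
  [Fintype κ] [DecidableEq κ] {B : Bun n Z κ}

lemma Bun.mkS_at {u : Chart n Z → Cm n → κ → ℂ} (h : B.IsSec u) {e : Chart n Z} {x : Z}
    (hx : At e x) : (Bun.mkS u h).f e (e x) = u e (e x) := Bun.cut_at hx

/-! ### zeroth order -/

namespace ZOp

/-- local action -/
def ap (M : ZOp B) (u : Chart n Z → Cm n → κ → ℂ) : Chart n Z → Cm n → κ → ℂ :=
  fun e z => M.M e z *ᵥ u e z

lemma isSec_ap (M : ZOp B) {u : Chart n Z → Cm n → κ → ℂ} (hu : B.IsSec u) : B.IsSec (M.ap u) where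
  smooth e x hx i := by
    simp only [ap, Matrix.mulVec, dotProduct]
    exact ContDiffAt.sum fun j _ => (M.smooth e x hx i j).mul (hu.smooth e x hx j)
  change e e' x hx hx' := by
    simp only [ap]
    rw [hu.change e e' x hx hx', Matrix.mulVec_mulVec, M.change e e' x hx hx',
      ← Matrix.mulVec_mulVec]

lemma cut_ap (M : ZOp B) (u : Chart n Z → Cm n → κ → ℂ) (hu : ∀ e z,
    ¬ (e ∈ atlas (Cm n) Z ∧ z ∈ e.target) → u e z = 0) : Bun.cut (M.ap u) = M.ap u := by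
  funext e z
  unfold Bun.cut
  split_ifs with h
  · rfl
  · simp only [ap]; rw [hu e z h, Matrix.mulVec_zero]

/-- the action on smooth sections -/
def op (M : ZOp B) : B.S →ₗ[ℂ] B.S where
  toFun s := Bun.mkS (M.ap s.f) (M.isSec_ap s.isSec)
  map_add' s t := by
    apply Bun.S.ext_f
    intro e x hx
    refine (Bun.mkS_at _ hx).trans ((Matrix.mulVec_add _ _ _).trans ?_)
    exact congrArg₂ (· + ·) (Bun.mkS_at (M.isSec_ap s.isSec) hx).symm
      (Bun.mkS_at (M.isSec_ap t.isSec) hx).symm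
  map_smul' c s := by
    apply Bun.S.ext_f
    intro e x hx
    refine (Bun.mkS_at _ hx).trans (Eq.trans (Matrix.mulVec_smul (M.M e (e x)) c
      (s.f e (e x))) ?_)
    exact congrArg (c • ·) (Bun.mkS_at (M.isSec_ap s.isSec) hx).symm

lemma op_at (M : ZOp B) (s : B.S) {e : Chart n Z} {x : Z} (hx : At e x) :
    (M.op s).f e (e x) = M.M e (e x) *ᵥ s.f e (e x) := Bun.mkS_at (M.isSec_ap s.isSec) hx

/-- the adjoint -/
def adj (M : ZOp B) : ZOp B where
  M e z := (B.H e z)⁻¹ * (M.M e z)ᴴ * B.H e z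
  smooth e x hx i j := by
    have hH : C2.MC ∞ (B.H e) (e x) := fun p q => B.H_smooth e x hx p q
    have hM : C2.MC ∞ (M.M e) (e x) := fun p q => M.smooth e x hx p q
    have h0 : (B.H e (e x)).det ≠ 0 := (B.H_pos e x hx).det_pos.ne'
    have hMt : C2.MC ∞ (fun z => (M.M e z)ᴴ) (e x) := fun p q => by
      have h1 : ContDiff ℝ ∞ (fun w : ℂ => star w) := by
        have : (fun w : ℂ => star w) = fun w => Complex.conjCLE w := rfl
        rw [this]; exact Complex.conjCLE.contDiff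
      exact h1.contDiffAt.comp (e x) (hM q p)
    exact ((hH.inv h0).mul hMt).mul hH i j
  change e e' x hx hx' := by
    set t := B.tr e e' x with ht
    set H := B.H e (e x) with hH
    set H' := B.H e' (e' x) with hH'
    set A := M.M e (e x) with hA
    set A' := M.M e' (e' x) with hA'
    set c : ℂ := ((‖(jacM e e' x).det‖ ^ 2 : ℝ) : ℂ) with hc
    have h1 : tᴴ * H * t = c • H' := B.H_change e e' x hx hx'
    have h2 : A * t = t * A' := M.change e e' x hx hx'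
    have hHu : IsUnit H.det := isUnit_iff_ne_zero.2 (B.H_pos e x hx).det_pos.ne'
    have hHu' : IsUnit H'.det := isUnit_iff_ne_zero.2 (B.H_pos e' x hx').det_pos.ne'
    have htt : B.tr e' e x * t = 1 := by
      rw [ht, B.tr_mul e' e e' x hx' hx hx', B.tr_self e' x hx']
    have htt' : t * B.tr e' e x = 1 := by
      rw [ht, B.tr_mul e e' e x hx hx' hx, B.tr_self e x hx]
    have htu : IsUnit t.det := by
      rw [Matrix.isUnit_iff_isUnit_det .. |>.symm]
      exact ⟨⟨t, B.tr e' e x, htt', htt⟩, rfl⟩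
    have htcu : IsUnit tᴴ.det := by
      rw [Matrix.det_conjTranspose]; exact htu.star
    -- multiply by `tᴴ H`
    have key : tᴴ * H * (H⁻¹ * Aᴴ * H * t) = tᴴ * H * (t * (H'⁻¹ * A'ᴴ * H')) := by
      have e1 : tᴴ * H * (H⁻¹ * Aᴴ * H * t) = (A * t)ᴴ * H * t := by
        rw [Matrix.conjTranspose_mul]
        simp only [Matrix.mul_assoc]
        rw [Matrix.mul_nonsing_inv_cancel_left _ _ hHu]
      have e2 : tᴴ * H * (t * (H'⁻¹ * A'ᴴ * H')) = c • (A'ᴴ * H') := by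
        rw [← Matrix.mul_assoc, h1, Matrix.smul_mul]
        simp only [Matrix.mul_assoc]
        rw [Matrix.mul_nonsing_inv_cancel_left _ _ hHu']
      rw [e1, e2, h2, Matrix.conjTranspose_mul, Matrix.mul_assoc, Matrix.mul_assoc,
        ← Matrix.mul_assoc tᴴ, h1, Matrix.mul_smul]
    have hu : IsUnit (tᴴ * H).det := by
      rw [Matrix.det_mul]; exact htcu.mul hHu
    have := congrArg (fun X => (tᴴ * H)⁻¹ * X) key
    simpa only [Matrix.nonsing_inv_mul_cancel_left _ _ hu] using this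

lemma den_adj (M : ZOp B) {u v : Chart n Z → Cm n → κ → ℂ} {e : Chart n Z} {x : Z} (hx : At e x) :
    B.den (M.ap u) v e (e x) = B.den u (M.adj.ap v) e (e x) := by
  have hHu : IsUnit (B.H e (e x)).det := isUnit_iff_ne_zero.2 (B.H_pos e x hx).det_pos.ne'
  unfold Bun.den ap adj
  rw [Matrix.star_mulVec, ← Matrix.dotProduct_mulVec, Matrix.mulVec_mulVec, Matrix.mulVec_mulVec]
  simp only [Matrix.mul_assoc]
  rw [Matrix.mul_nonsing_inv_cancel_left _ _ hHu]

end ZOp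

/-! ### first order -/

namespace FOp

/-- local action -/
def ap (P : FOp B) (u : Chart n Z → Cm n → κ → ℂ) : Chart n Z → Cm n → κ → ℂ :=
  act P.A P.Ab P.C u

omit [DecidableEq κ] in
lemma _root_.Vale.Agent.P299.IX.act_congr {A Ab : Fin n → Chart n Z → Cm n → Matrix κ κ ℂ}
    {C : Chart n Z → Cm n → Matrix κ κ ℂ} {u v : Chart n Z → Cm n → κ → ℂ} {e : Chart n Z}
    {z : Cm n} (h : u e =ᶠ[𝓝 z] v e) : act A Ab C u e z = act A Ab C v e z := by
  unfold act
  rw [h.self_of_nhds]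
  congr 1
  exact Finset.sum_congr rfl fun l _ => by rw [DV_congr h, DVb_congr h]

lemma ap_congr (P : FOp B) {u v : Chart n Z → Cm n → κ → ℂ} {e : Chart n Z}
    {z : Cm n} (h : u e =ᶠ[𝓝 z] v e) : P.ap u e z = P.ap v e z := act_congr h

lemma ap_add (P : FOp B) {u v : Chart n Z → Cm n → κ → ℂ} {e : Chart n Z} {z : Cm n}
    (hu : VC 1 (u e) z) (hv : VC 1 (v e) z) : P.ap (u + v) e z = P.ap u e z + P.ap v e z := by
  unfold ap act
  have h1 : ∀ l, DV l ((u + v) e) z = DV l (u e) z + DV l (v e) z := fun l => DV_add hu hv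
  have h2 : ∀ l, DVb l ((u + v) e) z = DVb l (u e) z + DVb l (v e) z := fun l => DVb_add hu hv
  have h3 : ∀ l, P.A l e z *ᵥ DV l ((u + v) e) z + P.Ab l e z *ᵥ DVb l ((u + v) e) z =
      (P.A l e z *ᵥ DV l (u e) z + P.Ab l e z *ᵥ DVb l (u e) z) +
      (P.A l e z *ᵥ DV l (v e) z + P.Ab l e z *ᵥ DVb l (v e) z) := by
    intro l; rw [h1, h2, Matrix.mulVec_add, Matrix.mulVec_add]; abel
  rw [Finset.sum_congr rfl fun l _ => h3 l, Finset.sum_add_distrib, Pi.add_apply, Pi.add_apply,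
    Matrix.mulVec_add]
  abel

omit [Fintype κ] [DecidableEq κ] in
lemma DV_csmul {l : Fin n} {u : Cm n → κ → ℂ} {z : Cm n} (c : ℂ) (hu : VC 1 u z) :
    DV l (fun y => c • u y) z = c • DV l u z := by
  ext i
  exact INT.dz_const_mul c ((hu i).differentiableAt (by simp))

omit [Fintype κ] [DecidableEq κ] in
lemma DVb_csmul {l : Fin n} {u : Cm n → κ → ℂ} {z : Cm n} (c : ℂ) (hu : VC 1 u z) :
    DVb l (fun y => c • u y) z = c • DVb l u z := by
  ext i
  exact INT.dzb_const_mul c ((hu i).differentiableAt (by simp))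

lemma ap_smul (P : FOp B) {u : Chart n Z → Cm n → κ → ℂ} {e : Chart n Z} {z : Cm n} (c : ℂ)
    (hu : VC 1 (u e) z) : P.ap (c • u) e z = c • P.ap u e z := by
  unfold ap act
  have h1 : ∀ l, DV l ((c • u) e) z = c • DV l (u e) z := fun l => DV_csmul c hu
  have h2 : ∀ l, DVb l ((c • u) e) z = c • DVb l (u e) z := fun l => DVb_csmul c hu
  have h3 : ∀ l, P.A l e z *ᵥ DV l ((c • u) e) z + P.Ab l e z *ᵥ DVb l ((c • u) e) z =
      c • (P.A l e z *ᵥ DV l (u e) z + P.Ab l e z *ᵥ DVb l (u e) z) := by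
    intro l; rw [h1, h2, Matrix.mulVec_smul, Matrix.mulVec_smul, smul_add]
  rw [Finset.sum_congr rfl fun l _ => h3 l, Pi.smul_apply, Pi.smul_apply, Matrix.mulVec_smul,
    smul_add, Finset.smul_sum]

lemma isSec_ap (P : FOp B) {u : Chart n Z → Cm n → κ → ℂ} (hu : B.IsSec u) : B.IsSec (P.ap u) :=
  P.sec u hu

lemma _root_.Vale.Agent.P299.IX.Bun.IsSec.vc {u : Chart n Z → Cm n → κ → ℂ} (hu : B.IsSec u)
    {e : Chart n Z} {x : Z} (hx : At e x) : VC ∞ (u e) (e x) := fun i => hu.smooth e x hx i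

lemma _root_.Vale.Agent.P299.IX.Bun.IsSec.vc1 {u : Chart n Z → Cm n → κ → ℂ} (hu : B.IsSec u)
    {e : Chart n Z} {x : Z} (hx : At e x) : VC 1 (u e) (e x) :=
  (hu.vc hx).mono (by exact_mod_cast le_top)

/-- the action on smooth sections -/
def op (P : FOp B) : B.S →ₗ[ℂ] B.S where
  toFun s := Bun.mkS (P.ap s.f) (P.isSec_ap s.isSec)
  map_add' s t := by
    apply Bun.S.ext_f
    intro e x hx
    refine (Bun.mkS_at _ hx).trans ((P.ap_add (s.isSec.vc1 hx) (t.isSec.vc1 hx)).trans ?_)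
    exact congrArg₂ (· + ·) (Bun.mkS_at (P.isSec_ap s.isSec) hx).symm
      (Bun.mkS_at (P.isSec_ap t.isSec) hx).symm
  map_smul' c s := by
    apply Bun.S.ext_f
    intro e x hx
    refine (Bun.mkS_at _ hx).trans ((P.ap_smul c (s.isSec.vc1 hx)).trans ?_)
    exact congrArg (c • ·) (Bun.mkS_at (P.isSec_ap s.isSec) hx).symm

lemma op_at (P : FOp B) (s : B.S) {e : Chart n Z} {x : Z} (hx : At e x) :
    (P.op s).f e (e x) = P.ap s.f e (e x) := Bun.mkS_at (P.isSec_ap s.isSec) hx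

end FOp

end

section
variable {n : ℕ} {Z : Type*} [TopologicalSpace Z] [ChartedSpace (Cm n) Z]
  [IsManifold 𝓘(ℂ, Cm n) ω Z] [T2Space Z] [CompactSpace Z]
  {κ : Type*} [Fintype κ] [DecidableEq κ] {B : Bun n Z κ}

namespace ZOp

lemma inner_adj (M : ZOp B) (s t : B.S) : inner ℂ (M.op s) t = inner ℂ s (M.adj.op t) := by
  rw [Bun.inner_eq, Bun.inner_eq]
  refine intC_congr fun e x hx => ?_
  have h := M.den_adj (u := s.f) (v := t.f) hx
  unfold Bun.den at h ⊢
  rw [M.op_at s hx, M.adj.op_at t hx]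
  exact h


omit [IsManifold 𝓘(ℂ, Cm n) ω Z] [T2Space Z] [CompactSpace Z] in
/-- a matrix field as a continuous linear map valued function -/
lemma contDiffOn_toCLM {M : Chart n Z → Cm n → Matrix κ κ ℂ}
    (hM : ∀ e x, At e x → ∀ i j, ContDiffAt ℝ ∞ (fun z => M e z i j) (e x))
    {e : Chart n Z} (he : e ∈ atlas (Cm n) Z) :
    ContDiffOn ℝ ∞ (fun z => (Matrix.toEuclideanCLM (𝕜 := ℂ) (M e z) :
      EuclideanSpace ℂ κ →L[ℂ] EuclideanSpace ℂ κ)) e.target := by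
  have h1 : (fun z => (Matrix.toEuclideanCLM (𝕜 := ℂ) (M e z) :
      EuclideanSpace ℂ κ →L[ℂ] EuclideanSpace ℂ κ)) = fun z => ∑ i, ∑ j, M e z i j •
      Matrix.toEuclideanCLM (𝕜 := ℂ) (Matrix.single i j (1 : ℂ)) := by
    funext z
    conv_lhs => rw [Matrix.matrix_eq_sum_single (M e z)]
    simp only [map_sum]
    refine Finset.sum_congr rfl fun i _ => Finset.sum_congr rfl fun j _ => ?_
    rw [← map_smul, Matrix.smul_single, smul_eq_mul, mul_one]
  rw [h1]
  intro z hz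
  refine ContDiffWithinAt.sum fun i _ => ContDiffWithinAt.sum fun j _ => ?_
  have h2 := hM e (e.symm z) ⟨he, e.map_target hz⟩ i j
  rw [e.right_inv hz] at h2
  have h3 : ContDiffAt ℝ ∞ (fun _ : Cm n => (Matrix.toEuclideanCLM (n := κ) (𝕜 := ℂ)
      (Matrix.single i j (1 : ℂ)) : EuclideanSpace ℂ κ →L[ℂ] EuclideanSpace ℂ κ)) z :=
    contDiffAt_const
  exact (h2.smul h3).contDiffWithinAt

omit [IsManifold 𝓘(ℂ, Cm n) ω Z] [T2Space Z] [CompactSpace Z] in
/-- uniform comparison on compact sets in a chart -/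
lemma exists_bound_chart (B : Bun n Z κ) {M : Chart n Z → Cm n → Matrix κ κ ℂ}
    (hMs : ∀ e x, At e x → ∀ i j, ContDiffAt ℝ ∞ (fun z => M e z i j) (e x)) {e : Chart n Z}
    (he : e ∈ atlas (Cm n) Z) {K : Set (Cm n)}
    (hK : IsCompact K) (hKe : K ⊆ e.target) : ∃ C : ℝ, 0 ≤ C ∧ ∀ z ∈ K, ∀ v : κ → ℂ,
    (star (M e z *ᵥ v) ⬝ᵥ (B.H e z *ᵥ (M e z *ᵥ v))).re ≤
      C * (star v ⬝ᵥ (B.H e z *ᵥ v)).re := by
  have hG := (Bun.contDiffOn_GG (B := B) he).continuousOn.mono hKe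
  have hM := (contDiffOn_toCLM hMs he).continuousOn.mono hKe
  obtain ⟨m, hm, hmb⟩ := exists_lower hK hG fun z hz v hv => by
    have hA : At e (e.symm z) := ⟨he, e.map_target (hKe hz)⟩
    have hH := B.H_pos _ _ hA
    rw [e.right_inv (hKe hz)] at hH
    rw [Bun.inner_GG]
    exact (Complex.lt_def.1 (hH.dotProduct_mulVec_pos fun h => hv (by
      ext j; exact congrFun h j))).1
  obtain ⟨C₁, hC₁, h₁⟩ := exists_bound_on hK hG
  obtain ⟨C₂, hC₂, h₂⟩ := exists_bound_on hK hM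
  refine ⟨C₁ * C₂ ^ 2 / m, by positivity, fun z hz v => ?_⟩
  set V : EuclideanSpace ℂ κ := WithLp.toLp 2 v with hV
  set W : EuclideanSpace ℂ κ := Matrix.toEuclideanCLM (𝕜 := ℂ) (M e z) V with hW
  have hWo : W.ofLp = M e z *ᵥ v := by rw [hW, Matrix.ofLp_toEuclideanCLM]
  have e1 : star (M e z *ᵥ v) ⬝ᵥ (B.H e z *ᵥ (M e z *ᵥ v)) = inner ℂ W (B.GG e z W) := by
    rw [Bun.inner_GG, hWo]
  have e2 : star v ⬝ᵥ (B.H e z *ᵥ v) = inner ℂ V (B.GG e z V) := by
    rw [Bun.inner_GG]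
  rw [e1, e2]
  have h3 : (inner ℂ W (B.GG e z W)).re ≤ C₁ * ‖W‖ ^ 2 := by
    calc (inner ℂ W (B.GG e z W)).re ≤ ‖inner ℂ W (B.GG e z W)‖ := Complex.re_le_norm _
      _ ≤ ‖W‖ * ‖B.GG e z W‖ := norm_inner_le_norm _ _
      _ ≤ ‖W‖ * (C₁ * ‖W‖) := by
        gcongr
        exact ((B.GG e z).le_opNorm _).trans (by gcongr; exact h₁ z hz)
      _ = _ := by ring
  have h4 : ‖W‖ ≤ C₂ * ‖V‖ := (ContinuousLinearMap.le_opNorm _ _).trans (by
    gcongr; exact h₂ z hz)
  have h5 := hmb z hz V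
  calc (inner ℂ W (B.GG e z W)).re ≤ C₁ * ‖W‖ ^ 2 := h3
    _ ≤ C₁ * (C₂ * ‖V‖) ^ 2 := by gcongr
    _ = C₁ * C₂ ^ 2 / m * (m * ‖V‖ ^ 2) := by field_simp
    _ ≤ _ := by gcongr

end ZOp

omit [IsManifold 𝓘(ℂ, Cm n) ω Z] [T2Space Z] [CompactSpace Z] in
lemma IsDensity_le_of_chart {D D' : Chart n Z → Cm n → ℝ} [IsManifold 𝓘(ℂ, Cm n) ω Z]
    (hD : IsDensity D) (hD' : IsDensity D')
    {x : Z} {e' : Chart n Z} (hx' : At e' x) (h : D e' (e' x) ≤ D' e' (e' x))
    {e : Chart n Z} (hx : At e x) : D e (e x) ≤ D' e (e x) := by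
  rw [hD.change e e' x hx hx', hD'.change e e' x hx hx']
  gcongr

/-- an operator given in the charts by smooth matrices is bounded -/
lemma bounded_of_local (B : Bun n Z κ) {M : Chart n Z → Cm n → Matrix κ κ ℂ}
    (hMs : ∀ e x, At e x → ∀ i j, ContDiffAt ℝ ∞ (fun z => M e z i j) (e x)) :
    ∃ C : ℝ, 0 ≤ C ∧ ∀ s t : B.S, (∀ e x, At e x → t.f e (e x) = M e (e x) *ᵥ s.f e (e x)) →
      ‖t‖ ≤ C * ‖s‖ := by
  have h1 : ∀ i, ∃ C : ℝ, 0 ≤ C ∧ ∀ z ∈ (part n Z).e i '' tsupport ((part n Z).ρ i),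
      ∀ v : κ → ℂ, (star (M ((part n Z).e i) z *ᵥ v) ⬝ᵥ (B.H ((part n Z).e i) z *ᵥ
        (M ((part n Z).e i) z *ᵥ v))).re ≤
      C * (star v ⬝ᵥ (B.H ((part n Z).e i) z *ᵥ v)).re := fun i =>
    ZOp.exists_bound_chart B hMs ((part n Z).mem i) (isCompact_image_supp ((part n Z).supp i)) (by
      rintro _ ⟨x, hx, rfl⟩
      exact ((part n Z).e i).map_source ((part n Z).supp i hx))
  choose C hC0 hC using h1
  have hCs : 0 ≤ ∑ i, C i := Finset.sum_nonneg fun i _ => hC0 i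
  refine ⟨Real.sqrt (∑ i, C i), Real.sqrt_nonneg _, fun s t hst => ?_⟩
  refine abs_le_of_sq_le_sq' ?_ (by positivity) |>.2
  rw [mul_pow, Real.sq_sqrt hCs, Bun.norm_sq_eq, Bun.norm_sq_eq, ← intX_const_mul]
  refine intX_mono (Bun.isDensity_re t.isSec t.isSec)
    ((Bun.isDensity_re s.isSec s.isSec).const_mul _) fun e x hx => ?_
  obtain ⟨i, hi⟩ : ∃ i, (part n Z).ρ i x ≠ 0 := by
    by_contra hcon
    push Not at hcon
    have := (part n Z).sum x
    rw [Finset.sum_eq_zero fun i _ => hcon i] at this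
    exact zero_ne_one this
  have hxs : x ∈ tsupport ((part n Z).ρ i) := subset_tsupport _ hi
  have hxi : At ((part n Z).e i) x := ⟨(part n Z).mem i, (part n Z).supp i hxs⟩
  refine IsDensity_le_of_chart (Bun.isDensity_re t.isSec t.isSec)
    ((Bun.isDensity_re s.isSec s.isSec).const_mul _) hxi ?_ hx
  have h6 := hC i ((part n Z).e i x) ⟨x, hxs, rfl⟩ (s.f ((part n Z).e i) ((part n Z).e i x))
  rw [← hst _ x hxi] at h6
  refine h6.trans ?_
  have h7 : 0 ≤ (B.den s.f s.f ((part n Z).e i) ((part n Z).e i x)).re := Bun.den_self_nonneg hxi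
  have h8 : C i ≤ ∑ i, C i := Finset.single_le_sum (fun i _ => hC0 i) (Finset.mem_univ i)
  exact mul_le_mul_of_nonneg_right h8 h7

/-- zeroth order operators are bounded -/
lemma ZOp.bounded (M : ZOp B) : ∃ C : ℝ, 0 ≤ C ∧ ∀ s, ‖M.op s‖ ≤ C * ‖s‖ := by
  obtain ⟨C, hC0, hC⟩ := bounded_of_local B M.smooth
  exact ⟨C, hC0, fun s => hC s _ fun e x hx => M.op_at s hx⟩

end

end Vale.Agent.P299.IX
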