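import Vale.Agent.P299.H598.IX.Sec

/-!
# The spaces of smooth sections satisfy the axioms `LocSp`
-/

open scoped Manifold ContDiff ComplexOrder Topology Matrix ComplexConjugate
open MeasureTheory Set Filter
open Vale.Agent.P272.K Vale.Agent.P272.K.INT Vale.Agent.P299.H863

noncomputable section

namespace Vale.Agent.P299.IX

section
variable {n : ℕ} {Z : Type*} [TopologicalSpace Z] [ChartedSpace (Cm n) Z]
  [IsManifold 𝓘(ℂ, Cm n) ω Z]

omit [ChartedSpace (Cm n) Z] [IsManifold 𝓘(ℂ, Cm n) ω Z] in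
/-- the image of the support of a cut-off in a chart -/
lemma isCompact_image_supp [CompactSpace Z] {e : Chart n Z} {ρ : Z → ℝ}
    (hs : tsupport ρ ⊆ e.source) : IsCompact (e '' tsupport ρ) :=
  (isClosed_tsupport ρ).isCompact.image_of_continuousOn (e.continuousOn.mono hs)

/-- a function on `Z` supported in the chart `e`, read in the chart -/
def chi (e : Chart n Z) (ρ : Z → ℝ) : Cm n → ℝ := fun z =>
  open Classical in if z ∈ e.target then ρ (e.symm z) else 0

omit [ChartedSpace (Cm n) Z] [IsManifold 𝓘(ℂ, Cm n) ω Z] in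
lemma chi_eq {e : Chart n Z} {ρ : Z → ℝ} {z : Cm n} (hz : z ∈ e.target) :
    chi e ρ z = ρ (e.symm z) := by unfold chi; rw [if_pos hz]

omit [IsManifold 𝓘(ℂ, Cm n) ω Z] in
lemma testV_chi [CompactSpace Z] {e : Chart n Z} (he : e ∈ atlas (Cm n) Z) {ρ : Z → ℝ}
    (hρ : SmoothFn (n := n) ρ) (hs : tsupport ρ ⊆ e.source) : TestV e.target (chi e ρ) := by
  refine TestV.mk' e.open_target (isCompact_image_supp hs) ?_ ?_ ?_
  · rintro _ ⟨x, hx, rfl⟩; exact e.map_source (hs hx)
  · intro z hz
    have h1 := hρ e (e.symm z) ⟨he, e.map_target hz⟩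
    rw [e.right_inv hz] at h1
    refine (h1.congr_of_eventuallyEq ?_).contDiffWithinAt
    filter_upwards [e.open_target.mem_nhds hz] with y hy using chi_eq hy
  · intro z hz
    unfold chi
    split_ifs with h
    · refine image_eq_zero_of_notMem_tsupport fun h' => hz ⟨_, h', e.right_inv h⟩
    · rfl

variable (n Z) in
/-- the covering of `Z` by the charts of the chosen partition of unity -/
def cov [T2Space Z] [CompactSpace Z] : Cov (Cm n) (Fin (part n Z).N) where
  Ω i := ((part n Z).e i).target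
  isOpen i := ((part n Z).e i).open_target
  χ i := chi ((part n Z).e i) ((part n Z).ρ i)
  test i := testV_chi ((part n Z).mem i) ((part n Z).smooth i) ((part n Z).supp i)

end

namespace Bun
section
variable {n : ℕ} {Z : Type*} [TopologicalSpace Z] [ChartedSpace (Cm n) Z]
  {κ : Type*} [Fintype κ] [DecidableEq κ] {B : Bun n Z κ}

/-- extension of a function with compact support in the chart `e₀` to a family of local functions -/
def extF (B : Bun n Z κ) (e₀ : Chart n Z) (w : Cm n → κ → ℂ) : Chart n Z → Cm n → κ → ℂ :=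
  fun e z => open Classical in
    if e.symm z ∈ e₀.source then B.tr e e₀ (e.symm z) *ᵥ w (e₀ (e.symm z)) else 0

lemma extF_at {e₀ e : Chart n Z} {w : Cm n → κ → ℂ} {x : Z} (h : At e x) (h₀ : x ∈ e₀.source) :
    B.extF e₀ w e (e x) = B.tr e e₀ x *ᵥ w (e₀ x) := by
  unfold extF; rw [e.left_inv h.2, if_pos h₀]

lemma extF_at' {e₀ e : Chart n Z} {w : Cm n → κ → ℂ} {x : Z} (h : At e x) (h₀ : x ∉ e₀.source) :
    B.extF e₀ w e (e x) = 0 := by
  unfold extF; rw [e.left_inv h.2, if_neg h₀]

lemma isSec_extF [T2Space Z] [IsManifold 𝓘(ℂ, Cm n) ω Z] {e₀ : Chart n Z}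
    (he₀ : e₀ ∈ atlas (Cm n) Z) {w : Cm n → κ → ℂ}
    (hw : ContDiff ℝ ∞ w) {K : Set (Cm n)} (hK : IsCompact K) (hKe : K ⊆ e₀.target)
    (h0 : ∀ z, z ∉ K → w z = 0) : B.IsSec (B.extF e₀ w) where
  smooth e x hx i := by
    have hsymm : ContinuousAt e.symm (e x) := e.continuousAt_symm (e.map_source hx.2)
    by_cases h : x ∈ e₀.source
    · have hnear : ∀ᶠ z in 𝓝 (e x), e.symm z ∈ e₀.source := by
        apply hsymm.eventually
        rw [e.left_inv hx.2]
        exact e₀.open_source.mem_nhds h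
      have h1 : ContDiffAt ℝ ∞ (fun z => (B.tr e e₀ (e.symm z) *ᵥ w (e₀ (e.symm z))) i) (e x) := by
        simp only [Matrix.mulVec, dotProduct]
        refine ContDiffAt.sum fun j _ => (B.tr_smooth e e₀ x hx ⟨he₀, h⟩ i j).mul ?_
        have h2 : ContDiffAt ℝ ∞ (fun z => e₀ (e.symm z)) (e x) :=
          ((transition_contDiffAt hx (⟨he₀, h⟩ : At e₀ x)).of_le
            (by exact_mod_cast le_top)).restrict_scalars ℝ
        have h3 : ContDiffAt ℝ ∞ (fun z => w z j) (e₀ (e.symm (e x))) :=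
          (contDiff_pi.1 hw j).contDiffAt
        exact h3.comp (e x) h2
      refine h1.congr_of_eventuallyEq ?_
      filter_upwards [hnear] with z hz
      unfold extF; rw [if_pos hz]
    · have hKc : IsClosed (e₀.symm '' K) :=
        (hK.image_of_continuousOn (e₀.continuousOn_symm.mono hKe)).isClosed
      have hxK : x ∉ e₀.symm '' K := by
        rintro ⟨z, hz, rfl⟩; exact h (e₀.map_target (hKe hz))
      have hnear : ∀ᶠ z in 𝓝 (e x), e.symm z ∉ e₀.symm '' K := by
        have h1 : (e₀.symm '' K)ᶜ ∈ 𝓝 (e.symm (e x)) := by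
          rw [e.left_inv hx.2]
          exact hKc.isOpen_compl.mem_nhds hxK
        exact hsymm.preimage_mem_nhds h1
      refine (contDiffAt_const (c := (0 : ℂ))).congr_of_eventuallyEq ?_
      filter_upwards [hnear] with z hz
      unfold extF
      split_ifs with h'
      · rw [h0 _ fun hk => hz ⟨_, hk, e₀.left_inv h'⟩, Matrix.mulVec_zero]; rfl
      · rfl
  change e e' x hx hx' := by
    by_cases h : x ∈ e₀.source
    · rw [extF_at hx h, extF_at hx' h, Matrix.mulVec_mulVec, B.tr_mul e e' e₀ x hx hx' ⟨he₀, h⟩]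
    · rw [extF_at' hx h, extF_at' hx' h, Matrix.mulVec_zero]

end

section
variable {n : ℕ} {Z : Type*} [TopologicalSpace Z] [ChartedSpace (Cm n) Z]
  [IsManifold 𝓘(ℂ, Cm n) ω Z] [T2Space Z] [CompactSpace Z]
  {κ : Type*} [Fintype κ] [DecidableEq κ] (B : Bun n Z κ)

/-- extension by zero -/
def ext (e₀ : Chart n Z) (w : Cm n → EuclideanSpace ℂ κ) : B.S :=
  open Classical in
  if h : e₀ ∈ atlas (Cm n) Z ∧ TestV e₀.target w then
    mkS (B.extF e₀ fun z => (w z).ofLp) (isSec_extF h.1
      (by have := h.2.smooth; exact (PiLp.contDiff_ofLp (p := 2)).comp this)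
      h.2.cpt h.2.supp fun z hz => by rw [h.2.zero_off hz]; rfl)
  else 0

variable {B}

omit [CompactSpace Z] in
lemma ext_f {e₀ : Chart n Z} {w : Cm n → EuclideanSpace ℂ κ} (he₀ : e₀ ∈ atlas (Cm n) Z)
    (hw : TestV e₀.target w) : (B.ext e₀ w).f = cut (B.extF e₀ fun z => (w z).ofLp) := by
  unfold ext; rw [dif_pos ⟨he₀, hw⟩]; rfl

omit [CompactSpace Z] in
lemma ext_self {e₀ : Chart n Z} {w : Cm n → EuclideanSpace ℂ κ} (he₀ : e₀ ∈ atlas (Cm n) Z)
    (hw : TestV e₀.target w) {z : Cm n} (hz : z ∈ e₀.target) :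
    (B.ext e₀ w).f e₀ z = (w z).ofLp := by
  rw [ext_f he₀ hw, cut_eq he₀ hz]
  have h := extF_at (B := B) (w := fun z => (w z).ofLp) (e := e₀) (e₀ := e₀) (x := e₀.symm z)
    ⟨he₀, e₀.map_target hz⟩ (e₀.map_target hz)
  rw [e₀.right_inv hz, B.tr_self e₀ _ ⟨he₀, e₀.map_target hz⟩, Matrix.one_mulVec] at h
  exact h

/-- metric times density as a continuous linear map -/
def GG (B : Bun n Z κ) (e : Chart n Z) (z : Cm n) : EuclideanSpace ℂ κ →L[ℂ] EuclideanSpace ℂ κ :=
  Matrix.toEuclideanCLM (𝕜 := ℂ) (B.H e z)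

omit [IsManifold 𝓘(ℂ, Cm n) ω Z] [T2Space Z] [CompactSpace Z] in
lemma inner_GG (e : Chart n Z) (z : Cm n) (v w : EuclideanSpace ℂ κ) :
    inner ℂ v (B.GG e z w) = star v.ofLp ⬝ᵥ (B.H e z *ᵥ w.ofLp) := by
  rw [EuclideanSpace.inner_eq_star_dotProduct, GG, Matrix.ofLp_toEuclideanCLM, dotProduct_comm]

omit [IsManifold 𝓘(ℂ, Cm n) ω Z] [T2Space Z] [CompactSpace Z] in
lemma contDiffOn_GG {e : Chart n Z} (he : e ∈ atlas (Cm n) Z) :
    ContDiffOn ℝ ∞ (B.GG e) e.target := by
  have h1 : B.GG e = fun z => ∑ i, ∑ j, B.H e z i j •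
      Matrix.toEuclideanCLM (𝕜 := ℂ) (Matrix.single i j (1 : ℂ)) := by
    funext z
    unfold GG
    conv_lhs => rw [Matrix.matrix_eq_sum_single (B.H e z)]
    simp only [map_sum]
    refine Finset.sum_congr rfl fun i _ => Finset.sum_congr rfl fun j _ => ?_
    rw [← map_smul, Matrix.smul_single, smul_eq_mul, mul_one]
  rw [h1]
  intro z hz
  refine ContDiffWithinAt.sum fun i _ => ContDiffWithinAt.sum fun j _ => ?_
  have h2 := B.H_smooth e (e.symm z) ⟨he, e.map_target hz⟩ i j
  rw [e.right_inv hz] at h2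
  have h3 : ContDiffAt ℝ ∞ (fun _ : Cm n => (Matrix.toEuclideanCLM (n := κ) (𝕜 := ℂ)
      (Matrix.single i j (1 : ℂ)) : EuclideanSpace ℂ κ →L[ℂ] EuclideanSpace ℂ κ)) z :=
    contDiffAt_const
  exact (h2.smul h3).contDiffWithinAt

omit [IsManifold 𝓘(ℂ, Cm n) ω Z] [T2Space Z] [CompactSpace Z] in
lemma smoothOn (s : B.S) {e : Chart n Z} (he : e ∈ atlas (Cm n) Z) :
    ContDiffOn ℝ ∞ (s.f e) e.target := by
  intro z hz
  refine contDiffWithinAt_pi.2 fun i => ?_
  have h2 := s.smooth (e := e) (x := e.symm z) ⟨he, e.map_target hz⟩ i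
  rw [e.right_inv hz] at h2
  exact h2.contDiffWithinAt

lemma inner_ext' {e₀ : Chart n Z} {w : Cm n → EuclideanSpace ℂ κ} (he₀ : e₀ ∈ atlas (Cm n) Z)
    (hw : TestV e₀.target w) (s : B.S) :
    inner ℂ (B.ext e₀ w) s = ∫ z, inner ℂ (w z) (B.GG e₀ z (WithLp.toLp 2 (s.f e₀ z))) := by
  have hF : ∀ z ∉ e₀.target, inner ℂ (w z) (B.GG e₀ z (WithLp.toLp 2 (s.f e₀ z))) = 0 := by
    intro z hz
    rw [hw.zero_off fun h => hz (hw.supp h), inner_zero_left]
  -- the right hand side
  have hcont : Continuous fun z => inner ℂ (w z) (B.GG e₀ z (WithLp.toLp 2 (s.f e₀ z))) := by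
    rw [continuous_iff_continuousAt]
    intro z
    by_cases hz : z ∈ e₀.target
    · have h1 : ContinuousAt (B.GG e₀) z :=
        (contDiffOn_GG (B := B) he₀).continuousOn.continuousAt (e₀.open_target.mem_nhds hz)
      have h2 : ContinuousAt (fun z => WithLp.toLp 2 (s.f e₀ z)) z :=
        ((PiLp.continuous_toLp 2 _).continuousAt).comp
          ((smoothOn s he₀).continuousOn.continuousAt (e₀.open_target.mem_nhds hz))
      exact (hw.smooth.continuous.continuousAt).inner (h1.clm_apply h2)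
    · have hz' : z ∉ tsupport w := fun h => hz (hw.supp h)
      have : (fun z => inner ℂ (w z) (B.GG e₀ z (WithLp.toLp 2 (s.f e₀ z)))) =ᶠ[𝓝 z]
          fun _ => (0 : ℂ) := by
        filter_upwards [(isClosed_tsupport w).isOpen_compl.mem_nhds hz'] with y hy
        rw [hw.zero_off hy, inner_zero_left]
      exact continuousAt_const.congr this.symm
  have hsupp : HasCompactSupport
      fun z => inner ℂ (w z) (B.GG e₀ z (WithLp.toLp 2 (s.f e₀ z))) :=
    HasCompactSupport.intro hw.cpt fun z hz => by rw [hw.zero_off hz, inner_zero_left]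
  have hint := hcont.integrable_of_hasCompactSupport (μ := volume) hsupp
  rw [← integral_re_add_im hint, ← setIntegral_eq_integral_of_forall_compl_eq_zero (s := e₀.target)
    (f := fun z => RCLike.re (inner ℂ (w z) (B.GG e₀ z (WithLp.toLp 2 (s.f e₀ z)))))
    (fun z hz => by rw [hF z hz]; simp),
    ← setIntegral_eq_integral_of_forall_compl_eq_zero (s := e₀.target)
    (f := fun z => RCLike.im (inner ℂ (w z) (B.GG e₀ z (WithLp.toLp 2 (s.f e₀ z)))))
    (fun z hz => by rw [hF z hz]; simp)]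
  -- the left hand side
  have hKc : IsClosed (e₀.symm '' tsupport w) :=
    ((show IsCompact (tsupport w) from hw.cpt).image_of_continuousOn
      (e₀.continuousOn_symm.mono hw.supp)).isClosed
  have hKe : e₀.symm '' tsupport w ⊆ e₀.source := by
    rintro _ ⟨z, hz, rfl⟩; exact e₀.map_target (hw.supp hz)
  have hden0 : ∀ e' x, At e' x → x ∉ e₀.symm '' tsupport w →
      B.den (B.ext e₀ w).f s.f e' (e' x) = 0 := by
    intro e' x hx hxK
    have h0 : (B.ext e₀ w).f e' (e' x) = 0 := by
      rw [ext_f he₀ hw, cut_at hx]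
      by_cases h : x ∈ e₀.source
      · rw [extF_at hx h]
        simp only
        rw [hw.zero_off fun hk => hxK ⟨_, hk, e₀.left_inv h⟩]
        exact Matrix.mulVec_zero _
      · exact extF_at' hx h
    unfold den
    rw [h0, star_zero, zero_dotProduct]
  have hdenE : ∀ z ∈ e₀.target, B.den (B.ext e₀ w).f s.f e₀ z =
      inner ℂ (w z) (B.GG e₀ z (WithLp.toLp 2 (s.f e₀ z))) := by
    intro z hz
    rw [inner_GG]
    unfold den
    rw [ext_self he₀ hw hz]
  rw [inner_eq]
  unfold intC
  rw [intX_of_support (isDensity_re (B.ext e₀ w).isSec s.isSec) he₀ hKc hKe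
      (fun e' x hx hxK => by rw [hden0 e' x hx hxK]; rfl),
    intX_of_support (isDensity_im (B.ext e₀ w).isSec s.isSec) he₀ hKc hKe
      (fun e' x hx hxK => by rw [hden0 e' x hx hxK]; rfl), mul_comm Complex.I]
  have hm := e₀.open_target.measurableSet
  rw [setIntegral_congr_fun hm (f := fun z => (B.den (B.ext e₀ w).f s.f e₀ z).re) (g := fun z =>
      (inner ℂ (w z) (B.GG e₀ z (WithLp.toLp 2 (s.f e₀ z)))).re)
      (fun z hz => by simp only [hdenE z hz]),
    setIntegral_congr_fun hm (f := fun z => (B.den (B.ext e₀ w).f s.f e₀ z).im) (g := fun z =>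
      (inner ℂ (w z) (B.GG e₀ z (WithLp.toLp 2 (s.f e₀ z)))).im)
      (fun z hz => by simp only [hdenE z hz])]
  rfl

/-- the axioms of the `L²` theory -/
def locSp (B : Bun n Z κ) :
    LocSp (volume : Measure (Cm n)) (cov n Z) (EuclideanSpace ℂ κ) B.S where
  r i s x := WithLp.toLp 2 (s.f ((part n Z).e i) x)
  r_add i s t x _ := rfl
  r_smul i a s x _ := rfl
  r_smooth i s := by
    exact (PiLp.contDiff_toLp (p := 2)).comp_contDiffOn (smoothOn s ((part n Z).mem i))
  ext i w := B.ext ((part n Z).e i) w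
  r_ext i w hw x hx := by rw [ext_self ((part n Z).mem i) hw hx]
  G i := B.GG ((part n Z).e i)
  G_smooth i := contDiffOn_GG ((part n Z).mem i)
  G_symm i x hx v w := by
    have hA : At ((part n Z).e i) (((part n Z).e i).symm x) :=
      ⟨(part n Z).mem i, ((part n Z).e i).map_target hx⟩
    have hH : (B.H ((part n Z).e i) x)ᴴ = B.H ((part n Z).e i) x := by
      have := (B.H_pos _ _ hA).isHermitian
      rwa [((part n Z).e i).right_inv hx] at this
    rw [← inner_conj_symm, inner_GG, inner_GG, starRingEnd_apply, ← Matrix.star_dotProduct_star,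
      star_star, Matrix.star_mulVec, hH]
    first
    | exact (dotProduct_comm _ _).trans (Matrix.dotProduct_mulVec _ _ _).symm
    | exact (Matrix.dotProduct_mulVec _ _ _).symm
  G_pos i x hx v hv := by
    have hA : At ((part n Z).e i) (((part n Z).e i).symm x) :=
      ⟨(part n Z).mem i, ((part n Z).e i).map_target hx⟩
    have hH := B.H_pos _ _ hA
    rw [((part n Z).e i).right_inv hx] at hH
    rw [inner_GG]
    exact (Complex.lt_def.1 (hH.dotProduct_mulVec_pos fun h => hv (by
      ext j; exact congrFun h j))).1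
  inner_ext i w s hw := inner_ext' ((part n Z).mem i) hw s
  sum_ext s := by
    apply S.ext_f
    intro e x hx
    rw [S.sum_f]
    simp only [Finset.sum_apply]
    have key : ∀ i, (B.ext ((part n Z).e i) fun y => (cov n Z).χ i y •
        WithLp.toLp 2 (s.f ((part n Z).e i) y)).f e (e x) =
        (((part n Z).ρ i x : ℝ) : ℂ) • s.f e (e x) := by
      intro i
      have hw : TestV ((part n Z).e i).target (fun y => (cov n Z).χ i y •
          (WithLp.toLp 2 (s.f ((part n Z).e i) y) : EuclideanSpace ℂ κ)) :=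
        ((cov n Z).test i).smul ((cov n Z).isOpen i)
          ((PiLp.contDiff_toLp (p := 2)).comp_contDiffOn (smoothOn s ((part n Z).mem i)))
      rw [ext_f ((part n Z).mem i) hw, cut_at hx]
      by_cases h : x ∈ ((part n Z).e i).source
      · rw [extF_at hx h]
        have h2 : (cov n Z).χ i ((part n Z).e i x) = (part n Z).ρ i x := by
          change chi _ _ _ = _
          rw [chi_eq (((part n Z).e i).map_source h), ((part n Z).e i).left_inv h]
        simp only [h2]
        rw [s.change hx ⟨(part n Z).mem i, h⟩, ← Matrix.mulVec_smul]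
        congr 1
      · rw [extF_at' hx h, image_eq_zero_of_notMem_tsupport fun h' => h ((part n Z).supp i h')]
        simp
    simp only [key]
    rw [← Finset.sum_smul, ← Complex.ofReal_sum, (part n Z).sum]
    simp

end

end Bun

end Vale.Agent.P299.IX
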