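import Vale.Agent.P299.H598.IX.Tot

/-!
# Operators on smooth sections: zeroth and first order, lifts of torus actions
-/

open scoped Manifold ContDiff ComplexOrder Topology Matrix ComplexConjugate
open MeasureTheory Set Filter
open Vale.Agent.P272.K Vale.Agent.P272.K.INT Vale.Agent.P299.H863

noncomputable section

namespace Vale.Agent.P299.IX

section
variable {n : ℕ} {Z : Type*} [TopologicalSpace Z] [ChartedSpace (Cm n) Z] {κ : Type*}
  [Fintype κ] [DecidableEq κ]

/-- zeroth order operator (endomorphism field) on the bundle `B` -/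
structure ZOp (B : Bun n Z κ) where
  M : Chart n Z → Cm n → Matrix κ κ ℂ
  smooth : ∀ e x, At e x → ∀ i j, ContDiffAt ℝ ∞ (fun z => M e z i j) (e x)
  change : ∀ e e' x, At e x → At e' x → M e (e x) * B.tr e e' x = B.tr e e' x * M e' (e' x)

/-- the local expression of a first order operator with coefficients `A l` (of `∂_l`), `Ab l` (of
`∂̄_l`) and `C` -/
def act (A Ab : Fin n → Chart n Z → Cm n → Matrix κ κ ℂ) (C : Chart n Z → Cm n → Matrix κ κ ℂ)
    (u : Chart n Z → Cm n → κ → ℂ) : Chart n Z → Cm n → κ → ℂ := fun e z =>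
  ∑ l, (A l e z *ᵥ DV l (u e) z + Ab l e z *ᵥ DVb l (u e) z) + C e z *ᵥ u e z

/-- first order differential operator on the bundle `B` -/
structure FOp (B : Bun n Z κ) where
  A : Fin n → Chart n Z → Cm n → Matrix κ κ ℂ
  Ab : Fin n → Chart n Z → Cm n → Matrix κ κ ℂ
  C : Chart n Z → Cm n → Matrix κ κ ℂ
  smA : ∀ l e x, At e x → ∀ i j, ContDiffAt ℝ ∞ (fun z => A l e z i j) (e x)
  smAb : ∀ l e x, At e x → ∀ i j, ContDiffAt ℝ ∞ (fun z => Ab l e z i j) (e x)
  smC : ∀ e x, At e x → ∀ i j, ContDiffAt ℝ ∞ (fun z => C e z i j) (e x)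
  sec : ∀ u, B.IsSec u → B.IsSec (act A Ab C u)

end

/-- A lift of the torus action `T` to the bundle `B`: for `At e x` and `At e' (T.a t x)`, the matrix
`R t e e' x` maps the fibre at `T.a t x` (in the chart `e'`) to the fibre at `x` (in the chart
`e`); so the pull back of the section `s` by `T.a t` is `R t e e' x *ᵥ s e' (e' (T.a t x))`. -/
structure Lift {r n : ℕ} {Z : Type} [TopologicalSpace Z] [ChartedSpace (Cm n) Z]
    {w : D.FormM n Z} (T : D.TorusAct r n Z w) {κ : Type*} [Fintype κ] [DecidableEq κ]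
    (B : Bun n Z κ) where
  R : (Fin r → ℝ) → Chart n Z → Chart n Z → Z → Matrix κ κ ℂ
  left : ∀ t e₁ e e' x, At e₁ x → At e x → At e' (T.a t x) →
    B.tr e₁ e x * R t e e' x = R t e₁ e' x
  right : ∀ t e e' e₁ x, At e x → At e' (T.a t x) → At e₁ (T.a t x) →
    R t e e' x * B.tr e' e₁ (T.a t x) = R t e e₁ x
  zero : ∀ e x, At e x → R 0 e e x = 1
  add : ∀ s t e e' e'' x, At e x → At e' (T.a t x) → At e'' (T.a s (T.a t x)) →
    R t e e' x * R s e' e'' (T.a t x) = R (s + t) e e'' x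
  per : ∀ (k : Fin r → ℤ) e x, At e x → R (fun i => (k i : ℝ)) e e x = 1
  iso : ∀ t e e' x, At e x → At e' (T.a t x) →
    (R t e e' x)ᴴ * B.H e (e x) * R t e e' x =
      ((‖(D.jacF (T.a t) e e' x).det‖ ^ 2 : ℝ) : ℂ) • B.H e' (e' (T.a t x))
  smooth : ∀ t e e' x, At e x → At e' (T.a t x) → ∀ i j,
    ContDiffAt ℝ ∞ (fun q : (Fin r → ℝ) × Cm n => R q.1 e e' (e.symm q.2) i j) (t, e x)

end Vale.Agent.P299.IX
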