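import Vale.Agent.P299.H863.Loc
import Vale.Agent.P299.H954.Zero

/-!
# Smooth sections of Hermitian vector bundles given by transition matrices

`Bun n Z κ`: transition matrices between the charts of the atlas of `Z`, and the matrices
`H e z` = (Hermitian metric) × (volume density).  `B.S` is the space of smooth sections with its
`L²` inner product.
-/

open scoped Manifold ContDiff ComplexOrder Topology Matrix ComplexConjugate
open MeasureTheory Set Filter
open Vale.Agent.P272.K Vale.Agent.P272.K.INT Vale.Agent.P299.H863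

noncomputable section

namespace Vale.Agent.P299.IX

/-- A smooth complex vector bundle in the charts of the atlas: transition matrices, and Hermitian
metric times volume density. -/
structure Bun (n : ℕ) (Z : Type*) [TopologicalSpace Z] [ChartedSpace (Cm n) Z] (κ : Type*)
    [Fintype κ] [DecidableEq κ] where
  tr : Chart n Z → Chart n Z → Z → Matrix κ κ ℂ
  H : Chart n Z → Cm n → Matrix κ κ ℂ
  tr_self : ∀ e x, At e x → tr e e x = 1
  tr_mul : ∀ e e' e'' x, At e x → At e' x → At e'' x → tr e e' x * tr e' e'' x = tr e e'' x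
  tr_smooth : ∀ e e' x, At e x → At e' x → ∀ i j,
    ContDiffAt ℝ ∞ (fun z => tr e e' (e.symm z) i j) (e x)
  H_smooth : ∀ e x, At e x → ∀ i j, ContDiffAt ℝ ∞ (fun z => H e z i j) (e x)
  H_pos : ∀ e x, At e x → (H e (e x)).PosDef
  H_change : ∀ e e' x, At e x → At e' x →
    (tr e e' x)ᴴ * H e (e x) * tr e e' x = ((‖(jacM e e' x).det‖ ^ 2 : ℝ) : ℂ) • H e' (e' x)

section
variable {n : ℕ} {Z : Type*} [TopologicalSpace Z] [ChartedSpace (Cm n) Z] {κ : Type*}
  [Fintype κ] [DecidableEq κ]

namespace Bun

/-- Smooth sections (not normalised outside the charts). -/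
structure IsSec (B : Bun n Z κ) (u : Chart n Z → Cm n → κ → ℂ) : Prop where
  smooth : ∀ e x, At e x → ∀ i, ContDiffAt ℝ ∞ (fun z => u e z i) (e x)
  change : ∀ e e' x, At e x → At e' x → u e (e x) = B.tr e e' x *ᵥ u e' (e' x)

/-- cutting a family of local functions off outside the charts -/
def cut (u : Chart n Z → Cm n → κ → ℂ) : Chart n Z → Cm n → κ → ℂ := fun e z =>
  open Classical in if e ∈ atlas (Cm n) Z ∧ z ∈ e.target then u e z else 0

omit [Fintype κ] [DecidableEq κ] in
lemma cut_eq {u : Chart n Z → Cm n → κ → ℂ} {e : Chart n Z} (he : e ∈ atlas (Cm n) Z) {z : Cm n}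
    (hz : z ∈ e.target) : cut u e z = u e z := by
  unfold cut; rw [if_pos ⟨he, hz⟩]

omit [Fintype κ] [DecidableEq κ] in
lemma cut_at {u : Chart n Z → Cm n → κ → ℂ} {e : Chart n Z} {x : Z} (h : At e x) :
    cut u e (e x) = u e (e x) := cut_eq h.1 (e.map_source h.2)

omit [Fintype κ] [DecidableEq κ] in
lemma cut_near {u : Chart n Z → Cm n → κ → ℂ} {e : Chart n Z} {x : Z} (h : At e x) :
    ∀ᶠ z in 𝓝 (e x), cut u e z = u e z := by
  filter_upwards [e.open_target.mem_nhds (e.map_source h.2)] with z hz using cut_eq h.1 hz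

omit [Fintype κ] [DecidableEq κ] in
lemma cut_off {u : Chart n Z → Cm n → κ → ℂ} {e : Chart n Z} {z : Cm n}
    (h : ¬ (e ∈ atlas (Cm n) Z ∧ z ∈ e.target)) : cut u e z = 0 := by
  unfold cut; rw [if_neg h]

lemma IsSec.cut {B : Bun n Z κ} {u : Chart n Z → Cm n → κ → ℂ} (h : B.IsSec u) :
    B.IsSec (cut u) where
  smooth e x hx i := by
    refine (h.smooth e x hx i).congr_of_eventuallyEq ?_
    filter_upwards [cut_near (u := u) hx] with z hz
    rw [hz]
  change e e' x hx hx' := by rw [cut_at hx, cut_at hx', h.change e e' x hx hx']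

/-- The submodule of normalised smooth sections. -/
def sub (B : Bun n Z κ) : Submodule ℂ (Chart n Z → Cm n → κ → ℂ) where
  carrier := {u | B.IsSec u ∧ ∀ e z, ¬ (e ∈ atlas (Cm n) Z ∧ z ∈ e.target) → u e z = 0}
  zero_mem' := by
    refine ⟨⟨fun e x _ i => ?_, fun e e' x _ _ => ?_⟩, fun e z _ => rfl⟩
    · exact contDiffAt_const
    · simp
  add_mem' := by
    rintro u v ⟨hu, hu'⟩ ⟨hv, hv'⟩
    refine ⟨⟨fun e x hx i => ?_, fun e e' x hx hx' => ?_⟩, fun e z h => ?_⟩
    · exact (hu.smooth e x hx i).add (hv.smooth e x hx i)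
    · simp only [Pi.add_apply]
      rw [hu.change e e' x hx hx', hv.change e e' x hx hx', Matrix.mulVec_add]
    · simp only [Pi.add_apply]
      rw [hu' e z h, hv' e z h, add_zero]
  smul_mem' := by
    rintro c u ⟨hu, hu'⟩
    refine ⟨⟨fun e x hx i => ?_, fun e e' x hx hx' => ?_⟩, fun e z h => ?_⟩
    · exact contDiffAt_const.mul (hu.smooth e x hx i)
    · simp only [Pi.smul_apply]
      rw [hu.change e e' x hx hx', Matrix.mulVec_smul]
    · simp only [Pi.smul_apply]
      rw [hu' e z h, smul_zero]

/-- The space of smooth sections. -/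
def S (B : Bun n Z κ) : Type _ := B.sub

instance (B : Bun n Z κ) : AddCommGroup B.S := inferInstanceAs (AddCommGroup B.sub)
instance (B : Bun n Z κ) : Module ℂ B.S := inferInstanceAs (Module ℂ B.sub)

variable {B : Bun n Z κ}

/-- the local functions of a section -/
def S.f (s : B.S) : Chart n Z → Cm n → κ → ℂ := (show B.sub from s).1

/-- a section from (not normalised) local functions -/
def mkS (u : Chart n Z → Cm n → κ → ℂ) (h : B.IsSec u) : B.S :=
  (⟨cut u, h.cut, fun _ _ h => cut_off h⟩ : B.sub)

lemma mkS_f {u : Chart n Z → Cm n → κ → ℂ} (h : B.IsSec u) : (mkS u h).f = cut u := rfl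

lemma S.isSec (s : B.S) : B.IsSec s.f := (show B.sub from s).2.1

lemma S.off (s : B.S) {e : Chart n Z} {z : Cm n}
    (h : ¬ (e ∈ atlas (Cm n) Z ∧ z ∈ e.target)) : s.f e z = 0 := (show B.sub from s).2.2 e z h

lemma S.smooth (s : B.S) {e : Chart n Z} {x : Z} (hx : At e x) (i : κ) :
    ContDiffAt ℝ ∞ (fun z => s.f e z i) (e x) := s.isSec.smooth e x hx i

lemma S.change (s : B.S) {e e' : Chart n Z} {x : Z} (hx : At e x) (hx' : At e' x) :
    s.f e (e x) = B.tr e e' x *ᵥ s.f e' (e' x) := s.isSec.change e e' x hx hx'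

lemma S.add_f (s t : B.S) : (s + t).f = s.f + t.f := rfl
lemma S.smul_f (c : ℂ) (s : B.S) : (c • s).f = c • s.f := rfl
lemma S.zero_f : (0 : B.S).f = 0 := rfl
lemma S.sub_f (s t : B.S) : (s - t).f = s.f - t.f := rfl
lemma S.neg_f (s : B.S) : (-s).f = -s.f := rfl

lemma S.sum_f {α : Type*} (t : Finset α) (s : α → B.S) : (∑ a ∈ t, s a).f = ∑ a ∈ t, (s a).f := by
  classical
  induction t using Finset.induction_on with
  | empty => rfl
  | insert a t ha ih => rw [Finset.sum_insert ha, Finset.sum_insert ha, S.add_f, ih]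

lemma S.ext_f {s t : B.S} (h : ∀ e x, At e x → s.f e (e x) = t.f e (e x)) : s = t := by
  apply Subtype.ext
  funext e z
  by_cases hz : e ∈ atlas (Cm n) Z ∧ z ∈ e.target
  · have := h e (e.symm z) ⟨hz.1, e.map_target hz.2⟩
    rw [e.right_inv hz.2] at this
    exact this
  · exact (s.off hz).trans (t.off hz).symm

lemma S.ext_iff {s t : B.S} : s = t ↔ ∀ e x, At e x → s.f e (e x) = t.f e (e x) :=
  ⟨fun h _ _ _ => by rw [h], S.ext_f⟩

/-! ### the inner product -/

/-- the density of the inner product (conjugate linear in the first variable) -/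
def den (B : Bun n Z κ) (u v : Chart n Z → Cm n → κ → ℂ) : Chart n Z → Cm n → ℂ := fun e z =>
  star (u e z) ⬝ᵥ (B.H e z *ᵥ v e z)

lemma smooth_den {u v : Chart n Z → Cm n → κ → ℂ} (hu : B.IsSec u) (hv : B.IsSec v)
    {e : Chart n Z} {x : Z} (hx : At e x) : ContDiffAt ℝ ∞ (B.den u v e) (e x) := by
  unfold den
  simp only [dotProduct, Matrix.mulVec]
  refine ContDiffAt.sum fun i _ => ContDiffAt.mul ?_ (ContDiffAt.sum fun j _ => ?_)
  · have h1 : ContDiff ℝ ∞ (fun w : ℂ => star w) := by
      have : (fun w : ℂ => star w) = fun w => Complex.conjCLE w := rfl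
      rw [this]; exact Complex.conjCLE.contDiff
    exact h1.contDiffAt.comp (e x) (hu.smooth e x hx i)
  · exact (B.H_smooth e x hx i j).mul (hv.smooth e x hx j)

lemma den_change {u v : Chart n Z → Cm n → κ → ℂ} (hu : B.IsSec u) (hv : B.IsSec v)
    {e e' : Chart n Z} {x : Z} (hx : At e x) (hx' : At e' x) :
    B.den u v e (e x) = B.den u v e' (e' x) * ((‖(jacM e e' x).det‖ ^ 2 : ℝ) : ℂ) := by
  have h := B.H_change e e' x hx hx'
  unfold den
  rw [hu.change e e' x hx hx', hv.change e e' x hx hx', Matrix.star_mulVec, Matrix.mulVec_mulVec,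
    ← Matrix.dotProduct_mulVec, Matrix.mulVec_mulVec, ← Matrix.mul_assoc, h, Matrix.smul_mulVec,
    dotProduct_smul, smul_eq_mul, mul_comm]

lemma isDensity_re {u v : Chart n Z → Cm n → κ → ℂ} (hu : B.IsSec u) (hv : B.IsSec v) :
    IsDensity (fun e z => (B.den u v e z).re) where
  cont e x hx := (Complex.continuous_re.continuousAt).comp (smooth_den hu hv hx).continuousAt
  change e e' x hx hx' := by
    rw [den_change hu hv hx hx', Complex.re_mul_ofReal]

lemma isDensity_im {u v : Chart n Z → Cm n → κ → ℂ} (hu : B.IsSec u) (hv : B.IsSec v) :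
    IsDensity (fun e z => (B.den u v e z).im) where
  cont e x hx := (Complex.continuous_im.continuousAt).comp (smooth_den hu hv hx).continuousAt
  change e e' x hx hx' := by
    rw [den_change hu hv hx hx', Complex.im_mul_ofReal]

lemma den_conj {u v : Chart n Z → Cm n → κ → ℂ} {e : Chart n Z} {x : Z} (hx : At e x) :
    conj (B.den v u e (e x)) = B.den u v e (e x) := by
  have hH : (B.H e (e x))ᴴ = B.H e (e x) := (B.H_pos e x hx).isHermitian
  unfold den
  rw [starRingEnd_apply, ← Matrix.star_dotProduct_star, star_star, Matrix.star_mulVec, hH]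
  first
  | exact (dotProduct_comm _ _).trans (Matrix.dotProduct_mulVec _ _ _).symm
  | exact (Matrix.dotProduct_mulVec _ _ _).symm

lemma den_self_nonneg {u : Chart n Z → Cm n → κ → ℂ} {e : Chart n Z} {x : Z} (hx : At e x) :
    0 ≤ (B.den u u e (e x)).re :=
  (Complex.le_def.1 ((B.H_pos e x hx).posSemidef.dotProduct_mulVec_nonneg (u e (e x)))).1

lemma den_self_pos {u : Chart n Z → Cm n → κ → ℂ} {e : Chart n Z} {x : Z} (hx : At e x)
    (h : u e (e x) ≠ 0) : 0 < (B.den u u e (e x)).re :=
  (Complex.lt_def.1 ((B.H_pos e x hx).dotProduct_mulVec_pos h)).1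

lemma den_add_left (u u' v : Chart n Z → Cm n → κ → ℂ) (e : Chart n Z) (z : Cm n) :
    B.den (u + u') v e z = B.den u v e z + B.den u' v e z := by
  simp only [den, Pi.add_apply, star_add, add_dotProduct]

lemma den_smul_left (c : ℂ) (u v : Chart n Z → Cm n → κ → ℂ) (e : Chart n Z) (z : Cm n) :
    B.den (c • u) v e z = conj c * B.den u v e z := by
  simp only [den, Pi.smul_apply, star_smul, smul_dotProduct, smul_eq_mul, starRingEnd_apply]

end Bun

end

section
variable {n : ℕ} {Z : Type*} [TopologicalSpace Z] [ChartedSpace (Cm n) Z]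
  [IsManifold 𝓘(ℂ, Cm n) ω Z] [T2Space Z] [CompactSpace Z]

/-- complex valued integral -/
def intC (D : Chart n Z → Cm n → ℂ) : ℂ :=
  ((intX fun e z => (D e z).re : ℝ) : ℂ) + Complex.I * ((intX fun e z => (D e z).im : ℝ) : ℂ)

lemma intC_re (D : Chart n Z → Cm n → ℂ) : (intC D).re = intX fun e z => (D e z).re := by
  simp [intC]

lemma intC_im (D : Chart n Z → Cm n → ℂ) : (intC D).im = intX fun e z => (D e z).im := by
  simp [intC]

lemma intC_congr {D D' : Chart n Z → Cm n → ℂ} (h : ∀ e x, At e x → D e (e x) = D' e (e x)) :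
    intC D = intC D' := by
  unfold intC
  rw [intX_congr (D' := fun e z => (D' e z).re) fun e x hx => congrArg Complex.re (h e x hx),
    intX_congr (D := fun e z => (D e z).im) (D' := fun e z => (D' e z).im)
      fun e x hx => congrArg Complex.im (h e x hx)]

/-- a complex density -/
structure IsDen (D : Chart n Z → Cm n → ℂ) : Prop where
  re : IsDensity (fun e z => (D e z).re)
  im : IsDensity (fun e z => (D e z).im)

lemma intC_add {D D' : Chart n Z → Cm n → ℂ} (h : IsDen D) (h' : IsDen D') :
    intC (fun e z => D e z + D' e z) = intC D + intC D' := by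
  apply Complex.ext
  · rw [Complex.add_re, intC_re, intC_re, intC_re, ← intX_add h.re h'.re]
    exact intX_congr fun e x _ => by simp
  · rw [Complex.add_im, intC_im, intC_im, intC_im, ← intX_add h.im h'.im]
    exact intX_congr fun e x _ => by simp

lemma intC_mul {D : Chart n Z → Cm n → ℂ} (h : IsDen D) (c : ℂ) :
    intC (fun e z => c * D e z) = c * intC D := by
  apply Complex.ext
  · rw [Complex.mul_re, intC_re, intC_re, intC_im, ← intX_const_mul, ← intX_const_mul,
      ← intX_sub (h.re.const_mul _) (h.im.const_mul _)]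
    exact intX_congr fun e x _ => by simp
  · rw [Complex.mul_im, intC_im, intC_re, intC_im, ← intX_const_mul, ← intX_const_mul,
      ← intX_add (h.im.const_mul _) (h.re.const_mul _)]
    exact intX_congr fun e x _ => by simp

lemma intC_conj {D : Chart n Z → Cm n → ℂ} :
    intC (fun e z => conj (D e z)) = conj (intC D) := by
  apply Complex.ext
  · rw [Complex.conj_re, intC_re, intC_re]
    exact intX_congr fun e x _ => by simp
  · rw [Complex.conj_im, intC_im, intC_im, ← neg_one_mul, ← intX_const_mul]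
    exact intX_congr fun e x _ => by simp

variable {κ : Type*} [Fintype κ] [DecidableEq κ]

namespace Bun
variable {B : Bun n Z κ}

omit [IsManifold 𝓘(ℂ, Cm n) ω Z] [T2Space Z] [CompactSpace Z] in
lemma isDen {u v : Chart n Z → Cm n → κ → ℂ} (hu : B.IsSec u) (hv : B.IsSec v) :
    IsDen (B.den u v) := ⟨isDensity_re hu hv, isDensity_im hu hv⟩

/-- the `L²` inner product -/
@[reducible] def core (B : Bun n Z κ) : InnerProductSpace.Core ℂ B.S where
  inner s t := intC (B.den s.f t.f)
  conj_inner_symm s t := by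
    change conj (intC (B.den t.f s.f)) = intC (B.den s.f t.f)
    rw [← intC_conj]
    exact intC_congr fun e x hx => den_conj hx
  re_inner_nonneg s := by
    change 0 ≤ (intC (B.den s.f s.f)).re
    rw [intC_re]
    exact intX_nonneg fun e x hx => den_self_nonneg hx
  add_left s t v := by
    refine Eq.trans ?_ (intC_add (isDen s.isSec v.isSec) (isDen t.isSec v.isSec))
    exact intC_congr fun e x _ => den_add_left _ _ _ _ _
  smul_left s t c := by
    change intC (B.den (c • s).f t.f) = _
    rw [← intC_mul (isDen s.isSec t.isSec)]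
    exact intC_congr fun e x _ => den_smul_left _ _ _ _ _
  definite s hs := by
    change intC (B.den s.f s.f) = 0 at hs
    by_contra hne
    have h1 : ∃ e x, At e x ∧ s.f e (e x) ≠ 0 := by
      by_contra hcon
      push Not at hcon
      exact hne (S.ext_f fun e x hx => by rw [hcon e x hx]; rfl)
    obtain ⟨e, x, hx, hne'⟩ := h1
    have h2 : 0 < intX fun e z => (B.den s.f s.f e z).re := by
      refine H954.intX_pos_of_pos (isDensity_re s.isSec s.isSec)
        (fun e x hx => den_self_nonneg hx) (x := x) fun e' hx' => den_self_pos hx' fun h0 => hne' ?_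
      rw [s.change hx hx', h0, Matrix.mulVec_zero]
    rw [← intC_re, hs] at h2
    exact lt_irrefl _ h2

instance (B : Bun n Z κ) : NormedAddCommGroup B.S := B.core.toNormedAddCommGroup
instance (B : Bun n Z κ) : InnerProductSpace ℂ B.S := InnerProductSpace.ofCore B.core.toCore

lemma inner_eq (s t : B.S) : inner ℂ s t = intC (B.den s.f t.f) := rfl

lemma norm_sq_eq (s : B.S) : ‖s‖ ^ 2 = intX fun e z => (B.den s.f s.f e z).re := by
  rw [← inner_self_eq_norm_sq (𝕜 := ℂ), inner_eq]
  exact intC_re _

end Bun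

end

end Vale.Agent.P299.IX
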