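import Vale.Agent.P299.H598.IX.LocInst
import Vale.Agent.P299.H954.IX.Defs
import Mathlib.Data.Matrix.Block

/-!
# The bundle `⊕_S Λ^{*,0} ⊗ (-k_S K)`
-/

open scoped Manifold ContDiff ComplexOrder Topology Matrix ComplexConjugate
open MeasureTheory Set Filter
open Vale.Agent.P272.K Vale.Agent.P272.K.INT Vale.Agent.P299.H863

noncomputable section

namespace Vale.Agent.P299.IX

/-! ### direct sums -/

namespace Bun

section
variable {n : ℕ} {Z : Type*} [TopologicalSpace Z] [ChartedSpace (Cm n) Z] {κ o : Type*}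
  [Fintype κ] [DecidableEq κ] [Fintype o] [DecidableEq o]

/-- the component `S` of a family of local functions -/
def blk (u : Chart n Z → Cm n → κ × o → ℂ) (S : o) : Chart n Z → Cm n → κ → ℂ :=
  fun e z I => u e z (I, S)

omit [Fintype κ] [DecidableEq κ] in
lemma blockDiagonal_mulVec [Fintype κ] [DecidableEq κ] (M : o → Matrix κ κ ℂ) (v : κ × o → ℂ)
    (I : κ) (S : o) :
    (Matrix.blockDiagonal M *ᵥ v) (I, S) = (M S *ᵥ fun J => v (J, S)) I := by
  simp only [Matrix.mulVec, dotProduct, Fintype.sum_prod_type, Matrix.blockDiagonal_apply]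
  refine Finset.sum_congr rfl fun J _ => ?_
  rw [Finset.sum_eq_single S]
  · rw [if_pos rfl]
  · intro b _ hb; rw [if_neg (Ne.symm hb), zero_mul]
  · intro h; exact absurd (Finset.mem_univ S) h

omit [Fintype κ] [DecidableEq κ] in
lemma blockDiagonal_form [Fintype κ] [DecidableEq κ] (M : o → Matrix κ κ ℂ) (u v : κ × o → ℂ) :
    star u ⬝ᵥ (Matrix.blockDiagonal M *ᵥ v) =
      ∑ S, star (fun J => u (J, S)) ⬝ᵥ (M S *ᵥ fun J => v (J, S)) := by
  simp only [dotProduct, Fintype.sum_prod_type_right, blockDiagonal_mulVec]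
  rfl

omit [Fintype κ] [DecidableEq κ] in
lemma blockDiagonal_posDef [Fintype κ] [DecidableEq κ] {M : o → Matrix κ κ ℂ}
    (h : ∀ S, (M S).PosDef) : (Matrix.blockDiagonal M).PosDef := by
  refine Matrix.PosDef.of_dotProduct_mulVec_pos ?_ fun v hv => ?_
  · rw [Matrix.IsHermitian, Matrix.blockDiagonal_conjTranspose]
    congr 1
    funext S
    exact (h S).isHermitian
  · rw [blockDiagonal_form]
    obtain ⟨⟨I, S⟩, hI⟩ := Function.ne_iff.1 hv
    refine Finset.sum_pos' (fun S _ => (h S).posSemidef.dotProduct_mulVec_nonneg _) ⟨S,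
      Finset.mem_univ _, (h S).dotProduct_mulVec_pos fun h0 => hI ?_⟩
    exact congrFun h0 I

/-- the direct sum of the bundles `B S` -/
def sum (B : o → Bun n Z κ) : Bun n Z (κ × o) where
  tr e e' x := Matrix.blockDiagonal fun S => (B S).tr e e' x
  H e z := Matrix.blockDiagonal fun S => (B S).H e z
  tr_self e x h := by
    have : (fun S => (B S).tr e e x) = 1 := funext fun S => (B S).tr_self e x h
    rw [this, Matrix.blockDiagonal_one]
  tr_mul e e' e'' x h h' h'' := by
    rw [← Matrix.blockDiagonal_mul]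
    congr 1
    funext S
    exact (B S).tr_mul e e' e'' x h h' h''
  tr_smooth e e' x h h' p q := by
    obtain ⟨I, S⟩ := p
    obtain ⟨J, S'⟩ := q
    simp only [Matrix.blockDiagonal_apply]
    split_ifs with hS
    · exact (B S).tr_smooth e e' x h h' I J
    · exact contDiffAt_const
  H_smooth e x h p q := by
    obtain ⟨I, S⟩ := p
    obtain ⟨J, S'⟩ := q
    simp only [Matrix.blockDiagonal_apply]
    split_ifs with hS
    · exact (B S).H_smooth e x h I J
    · exact contDiffAt_const
  H_pos e x h := blockDiagonal_posDef fun S => (B S).H_pos e x h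
  H_change e e' x h h' := by
    rw [Matrix.blockDiagonal_conjTranspose, ← Matrix.blockDiagonal_mul,
      ← Matrix.blockDiagonal_mul, ← Matrix.blockDiagonal_smul]
    congr 1
    funext S
    exact (B S).H_change e e' x h h'

variable {B : o → Bun n Z κ}

omit [Fintype κ] [DecidableEq κ] [Fintype o] [DecidableEq o] in
lemma blk_apply (u : Chart n Z → Cm n → κ × o → ℂ) (S : o) (e : Chart n Z) (z : Cm n) (I : κ) :
    blk u S e z I = u e z (I, S) := rfl

lemma isSec_blk {u : Chart n Z → Cm n → κ × o → ℂ} (hu : (sum B).IsSec u) (S : o) :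
    (B S).IsSec (blk u S) where
  smooth e x hx I := hu.smooth e x hx (I, S)
  change e e' x hx hx' := by
    funext I
    have := congrFun (hu.change e e' x hx hx') (I, S)
    rw [sum, blockDiagonal_mulVec] at this
    exact this

lemma isSec_of_blk {u : Chart n Z → Cm n → κ × o → ℂ} (hu : ∀ S, (B S).IsSec (blk u S)) :
    (sum B).IsSec u where
  smooth e x hx p := (hu p.2).smooth e x hx p.1
  change e e' x hx hx' := by
    funext ⟨I, S⟩
    have := congrFun ((hu S).change e e' x hx hx') I
    rw [sum, blockDiagonal_mulVec]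
    exact this

lemma isSec_iff_blk {u : Chart n Z → Cm n → κ × o → ℂ} :
    (sum B).IsSec u ↔ ∀ S, (B S).IsSec (blk u S) := ⟨isSec_blk, isSec_of_blk⟩

lemma den_sum (u v : Chart n Z → Cm n → κ × o → ℂ) (e : Chart n Z) (z : Cm n) :
    (sum B).den u v e z = ∑ S, (B S).den (blk u S) (blk v S) e z := by
  unfold den
  rw [sum, blockDiagonal_form]
  rfl

end

end Bun

/-! ### the bundle `Λ^{*,0} ⊗ (-kK)` -/

section
variable {n : ℕ} {Z : Type*} [TopologicalSpace Z] [ChartedSpace (Cm n) Z]
  [IsManifold 𝓘(ℂ, Cm n) ω Z] {w : D.FormM n Z}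

lemma metric_inv (hw : Vale.Agent.P272.K.IsHermitian w) {e e' : Chart n Z} {x : Z} (hx : At e x)
    (hx' : At e' x) :
    (jacM e e' x).map (starRingEnd ℂ) * (w e (e x))⁻¹ * (jacM e e' x)ᵀ = (w e' (e' x))⁻¹ := by
  have hJ := jacM_isUnit hx hx'
  have hJt : IsUnit (jacM e e' x)ᵀ.det := by rwa [Matrix.det_transpose]
  have hJc : IsUnit ((jacM e e' x).map (starRingEnd ℂ)).det := by
    rw [← RingHom.mapMatrix_apply, ← RingHom.map_det]
    exact hJ.map _
  rw [hw.change e e' x hx hx', Matrix.mul_inv_rev, Matrix.mul_inv_rev, ← Matrix.mul_assoc,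
    ← Matrix.mul_assoc, Matrix.mul_nonsing_inv _ hJc, Matrix.one_mul, Matrix.mul_assoc,
    Matrix.nonsing_inv_mul _ hJt, Matrix.mul_one]

lemma metric_det (hw : Vale.Agent.P272.K.IsHermitian w) {e e' : Chart n Z} {x : Z} (hx : At e x)
    (hx' : At e' x) :
    (w e (e x)).det = ((‖(jacM e e' x).det‖ ^ 2 : ℝ) : ℂ) * (w e' (e' x)).det := by
  rw [hw.change e e' x hx hx', Matrix.det_mul, Matrix.det_mul, Matrix.det_transpose,
    ← RingHom.mapMatrix_apply, ← RingHom.map_det, Complex.ofReal_pow,
    ← Complex.mul_conj' (jacM e e' x).det]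
  ring

/-- The bundle `Λ^{*,0} ⊗ (-kK)` with the metric given by `w`. -/
def FB (k : ℕ) (hw : IsKahler w) : Bun n Z (FI n) where
  tr e e' x := ((jacM e e' x).det⁻¹) ^ k • lam (jacM e e' x)ᵀ
  H e z := (w e z).det ^ (k + 1) • lam (w e z)⁻¹
  tr_self e x h := by rw [jacM_self h]; simp [lam_one]
  tr_mul e e' e'' x h h' h'' := by
    rw [jacM_comp h h' h'', Matrix.det_mul, Matrix.transpose_mul, lam_mul, mul_inv, mul_pow,
      Matrix.smul_mul, Matrix.mul_smul, smul_smul]
    congr 1
    ring
  tr_smooth e e' x h h' i j := by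
    have h1 : ContDiffAt ℝ ∞ (fun z => (jacM e e' (e.symm z)).det) (e x) :=
      ((jacM_det_holo h h').restrict_scalars ℝ).of_le (by exact le_top)
    have h2 : ContDiffAt ℝ ∞ (fun z => ((jacM e e' (e.symm z)).det)⁻¹ ^ k) (e x) := by
      refine (h1.inv ?_).pow k
      rw [h.left_inv]; exact jacM_det_ne_zero h h'
    have h3 : C2.MC ∞ (fun z => lam (jacM e e' (e.symm z))ᵀ) (e x) :=
      MC_lam fun p q => ((jacM_holo h h' q p).restrict_scalars ℝ).of_le (by exact le_top)
    exact h2.mul (h3 i j)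
  H_smooth e x h i j := by
    have hm : C2.MC ∞ (w e) (e x) := fun p q => hw.smooth e x h p q
    have h0 : (w e (e x)).det ≠ 0 := (hw.posDef e x h).det_pos.ne'
    exact (hm.det.pow _).mul (MC_lam (hm.inv h0) i j)
  H_pos e x h := by
    have h1 := hw.posDef e x h
    exact (lam_posDef h1.inv).smul (pow_pos h1.det_pos _)
  H_change e e' x h h' := by
    have hdet : (jacM e e' x).det ≠ 0 := jacM_det_ne_zero h h'
    rw [Matrix.conjTranspose_smul, Matrix.smul_mul, Matrix.mul_smul, Matrix.smul_mul,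
      Matrix.mul_smul, Matrix.smul_mul, ← lam_conjTranspose, ← lam_mul, ← lam_mul, smul_smul,
      smul_smul]
    have hct : ((jacM e e' x)ᵀ)ᴴ = (jacM e e' x).map (starRingEnd ℂ) := by
      ext i j; simp [Matrix.conjTranspose_apply, Matrix.transpose_apply]
    rw [hct, metric_inv hw.toIsHermitian h h', smul_smul]
    congr 1
    rw [metric_det hw.toIsHermitian h h', mul_pow, star_pow, ← starRingEnd_apply, map_inv₀,
      Complex.ofReal_pow, ← Complex.mul_conj' (jacM e e' x).det]
    have hc : (starRingEnd ℂ) (jacM e e' x).det ≠ 0 := by simpa using hdet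
    rw [inv_pow, inv_pow]
    field_simp
    ring

variable {k : ℕ} {hw : IsKahler w}

lemma isSec_FB_iff {g : Frm n Z} : (FB k hw).IsSec g ↔ IX.IsSec k g := by
  constructor
  · intro h
    refine ⟨fun e x hx i => h.smooth e x hx i, fun e e' x hx hx' => ?_⟩
    rw [h.change e e' x hx hx', FB, Matrix.smul_mulVec, smul_smul, ← mul_pow,
      mul_inv_cancel₀ (jacM_det_ne_zero hx hx'), one_pow, one_smul]
  · intro h
    refine ⟨fun e x hx i => h.smooth e x hx i, fun e e' x hx hx' => ?_⟩
    rw [FB, Matrix.smul_mulVec, ← h.change e e' x hx hx', smul_smul, ← mul_pow,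
      inv_mul_cancel₀ (jacM_det_ne_zero hx hx'), one_pow, one_smul]

lemma den_FB (g h : Frm n Z) (e : Chart n Z) (z : Cm n) :
    (FB k hw).den g h e z = hpX k w h g e z := by
  unfold Bun.den FB hpX hp rho Ld pr
  rw [Matrix.smul_mulVec, dotProduct_smul, smul_eq_mul]
  congr 1
  simp only [dotProduct]
  refine Finset.sum_congr rfl fun i _ => ?_
  rw [mul_comm]
  rfl

end

end Vale.Agent.P299.IX
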